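import Vale.Agent.P011N.E2.Frm
import Vale.Agent.P011N.E2.Simp

/-!
The anisotropic outer groups of type `E₆` with trivial Tits class are the groups of good families
of forms.
-/

open Module Matrix Polynomial

set_option linter.unusedSectionVars false

namespace Vale.Agent.P011N.X2

open Vale.Agent.P011N Vale.Agent.P011N.E2
open Vale.Agent.P011 Vale.Agent.P011.MPQ Vale.Agent.P011.D4 Vale.Agent.P011.D4.Oct
open Vale.Agent.P011.E6 Vale.Agent.P011.H500.Rl
open Vale.Agent.P011.E6W.H964 (Xm XU Sy Gm isUn_Xm)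
open Vale.Agent.P011.E6O (her)
open Vale.Agent.P011.D4.H24 (ob oup_ob)

variable {k E : Type} [Field k] [Field E] [NumberField E] [Algebra k E]
  {σ : E ≃ₐ[k] E} {g : Fin 3 → Eˣ} {a b c a' b' c' : kˣ} {i j l : Oct a b c}

variable (σ g) in
/-- The map preserves the cubic norm and the hermitian form. -/
def InH (φ : AlbL E a b c ≃ₗ[E] AlbL E a b c) : Prop :=
  (∀ x, Alb.cub (φ x) = Alb.cub x) ∧ ∀ x y, her σ g (φ x) (φ y) = her σ g x y

theorem conj_tripH (ht : Trip a' b' c' i j l)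
    {φ : AlbL E a' b' c' ≃ₗ[E] AlbL E a' b' c'} (hφ : InH σ g φ) :
    InH σ g (((tripA E ht).symm.trans φ).trans (tripA E ht)) := by
  refine ⟨fun x => ?_, fun x y => ?_⟩
  · change Alb.cub (tripA E ht (φ ((tripA E ht).symm x))) = _
    rw [E6X.H493.tripA_cub, hφ.1, ← E6X.H493.tripA_cub ht, LinearEquiv.apply_symm_apply]
  · change E6O.her σ g (tripA E ht (φ ((tripA E ht).symm x)))
      (tripA E ht (φ ((tripA E ht).symm y))) = _
    rw [E6X.H493.tripA_her, hφ.2, ← E6X.H493.tripA_her ht, LinearEquiv.apply_symm_apply,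
      LinearEquiv.apply_symm_apply]

theorem exists_cayH {y : Matrix (Fin 3) (Fin 3) E} (hs : Sy σ g y)
    (hd : (Dl y ((up E b : Eˣ) : E)).det ≠ 0) : ∃ φ : AlbL E a b c ≃ₗ[E] AlbL E a b c,
      InH σ g φ ∧ ∀ x, φ x = Alb.act (CU (up E a) (up E b) y hd) 1 x := by
  have hσ : σ ((up E b : Eˣ) : E) = (up E b : Eˣ) := σ.commutes _
  have hn : nu (CU (up E a) (up E b) y hd : Matrix (Fin 3) (Fin 3) (Qt (up E a) (up E b))) = 1 :=
    nu_cay two_ne_zero hd
  refine ⟨H64.actL two_ne_zero (CU (up E a) (up E b) y hd) 1, ⟨fun x => ?_, fun x z => ?_⟩,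
    fun x => rfl⟩
  · rw [H64.actL_apply, Units.val_one, cub_actG two_ne_zero _ (by rw [nrd_one, hn]), hn,
      one_mul]
  · rw [H64.actL_apply, H64.actL_apply, Units.val_one]
    have h := E6O.her_act (σ := σ) (g := g) (μ := 1) (m := CU (up E a) (up E b) y hd) one_ne_zero
      (isUn_Xm (Sy_xc hσ hd hs) (Sy_yc hσ hd hs) (cc_comm hd) (cc_one hd)) (κ := 1)
      (by rw [qmap_one, star_one, one_mul, one_pow]; rfl) x z
    rw [h, one_pow, one_mul]

/-- The Cayley transforms form a rational curve. -/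
theorem curve0H {x : Matrix (Fin 3) (Fin 3) E} (hs : Sy σ g x) :
    ∃ (G : ℚ → AlbL E a b c → AlbL E a b c) (q : ℚ[X]), (∀ v, IsRat fun t => G t v) ∧
      q.eval 0 ≠ 0 ∧ ∀ t : ℚ, q.eval t ≠ 0 → ∃ u : AlbL E a b c ≃ₗ[E] AlbL E a b c, InH σ g u ∧
        ∀ v, u v = v + t • DD ((2 : E) • x) v + t ^ 2 • G t v := by
  set β : E := ((up E b : Eˣ) : E) with hβ
  set Y : Matrix (Fin 3) (Fin 3) E := β • (x * x) with hY
  have hA : IsRat fun t : ℚ => 1 + t • t • (-Y) :=
    rat_add (rat_const _) (rat_tsmul (rat_tsmul (rat_const _)))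
  obtain ⟨B, q, hB, hq, h1⟩ := rat_ringInv hA (by rw [zero_smul, add_zero])
  have hr : IsRat fun t : ℚ => ((((2 : E) • Y) * B t, t • ((((2 : E) • x) * Y) * B t)) : WW E) :=
    rat_pair (rat_mul (rat_const _) hB) (rat_tsmul (rat_mul (rat_const _) hB))
  generalize hrd : (fun t : ℚ =>
    ((((2 : E) • Y) * B t, t • ((((2 : E) • x) * Y) * B t)) : WW E)) = r at hr
  have hs' : IsRat fun t : ℚ => ((0, (2 : E) • x) : WW E) + t • r t :=
    rat_add (rat_const _) (rat_tsmul hr)
  refine ⟨fun t v => F1 v (r t) + F2 v (((0, (2 : E) • x) : WW E) + t • r t)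
    (((0, (2 : E) • x) : WW E) + t • r t), q, fun v => rat_add
      (rat_lin ((F1 v).restrictScalars ℚ) hr)
      (rat_bil ((F2 v).restrictScalars₁₂ ℚ ℚ) hs' hs'), hq, fun t ht => ?_⟩
  have hD : Dl ((t : E) • x) β = 1 + t • t • (-Y) := by
    rw [Dl, hY, ← Rat.cast_smul_eq_qsmul E, ← Rat.cast_smul_eq_qsmul E, Matrix.smul_mul,
      Matrix.mul_smul]
    module
  have h2 : Dl ((t : E) • x) β * B t = 1 := by rw [hD]; exact h1 t ht
  have hd : (Dl ((t : E) • x) β).det ≠ 0 := Matrix.det_ne_zero_of_right_inverse h2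
  have hi : (Dl ((t : E) • x) β)⁻¹ = B t := Matrix.inv_eq_right_inv h2
  have h3 : B t = 1 + (t : E) • (t : E) • (Y * B t) := by
    have h4 := h1 t ht
    rw [← Rat.cast_smul_eq_qsmul E, ← Rat.cast_smul_eq_qsmul E, Matrix.add_mul, Matrix.one_mul,
      Matrix.smul_mul, Matrix.smul_mul, Matrix.neg_mul, smul_neg, smul_neg,
      ← sub_eq_add_neg] at h4
    exact sub_eq_iff_eq_add.1 h4
  obtain ⟨φ, hφ, h4⟩ := exists_cayH (a := a) (c := c)
    (Sy_smul (map_ratCast σ t) hs) hd
  refine ⟨φ, hφ, fun v => ?_⟩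
  have h5 : ((xc ((t : E) • x) β, yc ((t : E) • x) β) : WW E) =
      (1, 0) + (t : E) • (((0, (2 : E) • x) : WW E) + t • r t) := by
    rw [← hrd, ← Rat.cast_smul_eq_qsmul E]
    refine Prod.ext ?_ ?_
    · change xc ((t : E) • x) β = 1 + (t : E) • (0 + (t : E) • (((2 : E) • Y) * B t))
      rw [xc, hi, Matrix.smul_mul]
      conv_lhs => rw [h3]
      module
    · change yc ((t : E) • x) β =
        0 + (t : E) • ((2 : E) • x + (t : E) • t • ((((2 : E) • x) * Y) * B t))
      rw [yc, hi, ← Rat.cast_smul_eq_qsmul E, Matrix.smul_mul, Matrix.smul_mul, Matrix.smul_mul,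
        Matrix.mul_assoc]
      conv_lhs => rw [h3]
      rw [Matrix.mul_add, Matrix.mul_one, Matrix.mul_smul, Matrix.mul_smul]
      module
  have h6 : φ v = actM (xm (up E a) (up E b) (xc ((t : E) • x) β, yc ((t : E) • x) β))
      (xm (up E a) (up E b) (ng (xc ((t : E) • x) β, yc ((t : E) • x) β))) v := by
    rw [h4, act_eq]
    rfl
  change _ = v + t • DD ((2 : E) • x) v + t ^ 2 • (F1 v (r t) +
    F2 v (((0, (2 : E) • x) : WW E) + t • r t) (((0, (2 : E) • x) : WW E) + t • r t))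
  rw [h6, h5, act_expand, map_smul, map_smul, map_smul, LinearMap.smul_apply]
  generalize F2 v (((0, (2 : E) • x) : WW E) + t • r t) (((0, (2 : E) • x) : WW E) + t • r t) = z
  rw [map_add (F1 v), ← DD_apply, ← Rat.cast_smul_eq_qsmul E t (r t), map_smul (F1 v),
    ← Rat.cast_smul_eq_qsmul E t, ← Rat.cast_smul_eq_qsmul E (t ^ 2), Rat.cast_pow]
  module

/-- The rational curve with the tangent vector `DT ht x`. -/
theorem curveH (ht : Trip a' b' c' i j l) {x : Matrix (Fin 3) (Fin 3) E}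
    (hs : Sy σ g x) :
    ∃ (G : ℚ → AlbL E a b c → AlbL E a b c) (q : ℚ[X]), (∀ v, IsRat fun t => G t v) ∧
      q.eval 0 ≠ 0 ∧ ∀ t : ℚ, q.eval t ≠ 0 → ∃ u : AlbL E a b c ≃ₗ[E] AlbL E a b c, InH σ g u ∧
        ∀ v, u v = v + t • DT ht x v + t ^ 2 • G t v := by
  obtain ⟨G, q, h1, h2, h3⟩ := curve0H (a := a') (b := b') (c := c')
    (Sy_smul (t := (2 : E)⁻¹) (by rw [map_inv₀, map_ofNat]) hs)
  rw [smul_smul, mul_inv_cancel₀ two_ne_zero, one_smul] at h3
  refine ⟨fun t v => tripA E ht (G t ((tripA E ht).symm v)), q, fun v =>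
    rat_lin ((tripA E ht).toLinearMap.restrictScalars ℚ) (h1 _), h2, fun t hq => ?_⟩
  obtain ⟨u, hu, h4⟩ := h3 t hq
  refine ⟨_, conj_tripH ht hu, fun v => ?_⟩
  change tripA E ht (u ((tripA E ht).symm v)) = _
  rw [h4, map_add, map_add, LinearEquiv.apply_symm_apply, DT_apply,
    ← Rat.cast_smul_eq_qsmul E t, ← Rat.cast_smul_eq_qsmul E (t ^ 2), map_smul, map_smul,
    Rat.cast_smul_eq_qsmul, Rat.cast_smul_eq_qsmul]

/-- The hypotheses on the involution and on the weights. -/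
structure Inv (σ : E ≃ₐ[k] E) (g : Fin 3 → Eˣ) : Prop where
  /-- order two -/
  two : ∀ t, σ (σ t) = t
  /-- not trivial -/
  ne : ∃ t, σ t ≠ t
  /-- the weights are fixed -/
  fix : ∀ i, σ (g i) = g i

/-- The symmetric matrices span the matrices. -/
theorem span_syH (hS : Inv σ g) (M : Matrix (Fin 3) (Fin 3) E) :
    M ∈ Submodule.span E {x : Matrix (Fin 3) (Fin 3) E | Sy σ g x} := by
  obtain ⟨t, ht⟩ := hS.ne
  have hδ0 : t - σ t ≠ 0 := fun h => ht (sub_eq_zero.1 h).symm
  have hδ : σ (t - σ t) = -(t - σ t) := by rw [map_sub, hS.two, neg_sub]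
  generalize t - σ t = δ at hδ hδ0
  have key : ∀ N : Matrix (Fin 3) (Fin 3) E,
      Sy σ g (Matrix.of fun p q => N p q + (g p : E)⁻¹ * σ (N q p) * g q) := by
    intro N
    ext p q
    have h1 := (g p).ne_zero
    have h2 := (g q).ne_zero
    simp only [Gm, Matrix.mul_diagonal, Matrix.diagonal_mul, Matrix.transpose_apply,
      Matrix.map_apply, Matrix.of_apply, map_add, map_mul, map_inv₀, hS.two, hS.fix]
    field_simp
    ring
  have h1 := Submodule.add_mem _
    (Submodule.smul_mem _ (2 : E)⁻¹ (Submodule.subset_span (R := E)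
      (s := {x : Matrix (Fin 3) (Fin 3) E | Sy σ g x}) (key M)))
    (Submodule.smul_mem _ (2 * δ)⁻¹ (Submodule.subset_span (R := E)
      (s := {x : Matrix (Fin 3) (Fin 3) E | Sy σ g x}) (key (δ • M))))
  convert h1 using 1
  ext p q
  simp only [Matrix.add_apply, Matrix.smul_apply, Matrix.of_apply, smul_eq_mul, map_mul, hδ]
  field_simp
  ring

/-- The generating tangent vectors. -/
def GnH (σ : E ≃ₐ[k] E) (g : Fin 3 → Eˣ) (a b c : kˣ) : Set (Module.End E (AlbL E a b c)) :=
  {X | ∃ (a' b' c' : kˣ) (i j l : Oct a b c) (ht : Trip a' b' c' i j l)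
    (x : Matrix (Fin 3) (Fin 3) E), Sy σ g x ∧ X = DT ht x}

theorem GnH_smul {X : Module.End E (AlbL E a b c)} (hX : X ∈ GnH σ g a b c) {t : E}
    (h2 : σ t = t) : t • X ∈ GnH σ g a b c := by
  obtain ⟨a', b', c', i, j, l, ht, x, hs, rfl⟩ := hX
  exact ⟨a', b', c', i, j, l, ht, t • x, Sy_smul h2 hs, (DT_smul ht t x).symm⟩

open Vale.Agent.P011.H327.Star in
/-- The tangent vectors generate the Lie algebra of the cubic norm. -/
theorem gen_drH [CharZero k] (hS : Inv σ g)
    {V : Submodule E (Module.End E (AlbL E a b c))}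
    (hV : ∀ X ∈ V, ∀ Y ∈ V, X * Y - Y * X ∈ V) (h : ∀ X ∈ GnH σ g a b c, X ∈ V)
    {X : Module.End E (AlbL E a b c)} (hX : Dr X) : X ∈ V := by
  have h1 : ∀ m : Fin 8, m ≠ 0 → Has V (ob m) := by
    intro m hm
    obtain ⟨a', b', c', i, j, l, ht, rfl⟩ :=
      exists_trip_ob (F := k) (a := a) (b := b) (c := c) m hm
    rw [← oup_ob]
    refine has_trip ht fun M => ?_
    have h2 := span_syH hS M
    induction h2 using Submodule.span_induction with
    | mem x hx => exact h _ ⟨a', b', c', i, _, l, ht, x, hx, rfl⟩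
    | zero =>
      have h3 := DT_smul ht (0 : E) 0
      rw [zero_smul, zero_smul] at h3
      rw [h3]
      exact V.zero_mem
    | add y z _ _ hy hz => rw [DT_add]; exact V.add_mem hy hz
    | smul t y _ hy => rw [DT_smul]; exact V.smul_mem t hy
  refine star_main hV (fun q hq => ?_) hX
  have h0 : D4.H24.oc q 0 = 0 := by
    rw [bil_eq] at hq
    have h2 : 2 * q.fst.re = 0 := by simpa using hq
    exact (mul_eq_zero.1 h2).resolve_left two_ne_zero
  have hz : Has V 0 := by
    have h2 := (h1 1 (by decide)).lin (h1 1 (by decide)) 0 0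
    rwa [zero_smul, add_zero] at h2
  rw [← D4.H24.sum_oc q]
  refine Finset.sum_induction _ (Has V) (fun u v hu hv => ?_) hz fun m _ => ?_
  · have h2 := hu.lin hv 1 1
    rwa [one_smul, one_smul] at h2
  · by_cases hm : m = 0
    · rw [hm, h0, zero_smul]
      exact hz
    · have h2 := (h1 m hm).lin hz (D4.H24.oc q m) 0
      rwa [smul_zero, add_zero] at h2

open Vale.Agent.P011.E6.Alb
open Vale.Agent.P011.H327.Star

variable (σ g a b c) in
/-- The family of the invariant maps. -/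
def SH : EF E (AlbL E a b c) where
  I := Bool
  fin := inferInstance
  deg := fun i => match i with
    | true => 2
    | false => 3
  m := fun i => match i with
    | true => m2 σ g a b c
    | false => m3 E a b c

theorem mem_grpH {φ : AlbL E a b c ≃ₗ[E] AlbL E a b c} (hφ : InH σ g φ) :
    φ.restrictScalars ℚ ∈ (SH σ g a b c).toForms.grp := by
  rw [EF.mem_grp]
  rintro (_ | _) x
  · exact n3_map (map_add φ) hφ.1 _ _ _
  · exact hφ.2 _ _

theorem of_mem_grpH (hσ : ∀ t, σ (σ t) = t) {u : AlbL E a b c ≃ₗ[ℚ] AlbL E a b c}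
    (hu : u ∈ (SH σ g a b c).toForms.grp) :
    ∃ φ : AlbL E a b c ≃ₗ[E] AlbL E a b c, InH σ g φ ∧ ∀ x, φ x = u x := by
  rw [EF.mem_grp] at hu
  have h1 : ∀ x y, her σ g (u x) (u y) = her σ g x y := fun x y => hu true ![x, y]
  have h3 : ∀ x, n3 (u x) (u x) (u x) = n3 x x x := fun x => hu false ![x, x, x]
  have h4 : ∀ (t : E) x, u (t • x) = t • u x := fun t x => eq_of_her (g := g) hσ fun y => by
    obtain ⟨y, rfl⟩ := u.surjective y
    rw [h1, her_smul_left, her_smul_left, h1]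
  refine ⟨{ u.toAddEquiv with map_smul' := h4 }, ⟨fun x => ?_, h1⟩, fun _ => rfl⟩
  have h := h3 x
  rw [n3_self, n3_self] at h
  exact mul_left_cancel₀ (by norm_num) h

variable (σ g) in
/-- The Lie algebra of the group. -/
structure LgH (X : Module.End E (AlbL E a b c)) : Prop where
  /-- a derivation of the cubic norm -/
  dr : Dr X
  /-- skew for the hermitian form -/
  sk : ∀ x y, her σ g (X x) y + her σ g x (X y) = 0

theorem of_mem_lieH (hσ : ∀ t, σ (σ t) = t) {X : Module.End ℚ (AlbL E a b c)}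
    (hX : X ∈ (SH σ g a b c).toForms.lie) :
    ∃ Y : Module.End E (AlbL E a b c), LgH σ g Y ∧ Y.restrictScalars ℚ = X := by
  have hu := EF.of_mem_lie _ hX
  have h1 : ∀ x y, her σ g (X x) y + her σ g x (X y) = 0 := fun x y =>
    (Fin.sum_univ_two _).symm.trans (hu true ![x, y])
  have h3 : ∀ x, n3 (X x) x x + n3 x (X x) x + n3 x x (X x) = 0 := fun x =>
    (Fin.sum_univ_three _).symm.trans (hu false ![x, x, x])
  have h4 : ∀ (t : E) x, X (t • x) = t • X x := fun t x => eq_of_her (g := g) hσ fun y => by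
    have h5 := h1 (t • x) y
    rw [her_smul_left] at h5
    rw [her_smul_left]
    linear_combination h5 - t * h1 x y
  refine ⟨{ X.toAddHom with map_smul' := h4 }, ⟨fun x => ?_, h1⟩, rfl⟩
  have h := h3 x
  rw [n3, n3, n3, cross_comm (X x), tf_cross_comm x (X x), Alb.cross_self, tf_smul_left] at h
  change tf (adj x) (X x) = 0
  linear_combination (6 : E)⁻¹ * h

/-- Descent. -/
theorem descentH (hσ2 : ∀ t, σ (σ t) = t)
    {P : Set (Module.End E (AlbL E a b c))} (h0 : 0 ∈ P) (hadd : ∀ X ∈ P, ∀ Y ∈ P, X + Y ∈ P)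
    (hsm : ∀ t : E, σ t = t → ∀ X ∈ P, t • X ∈ P) (hL : ∀ X ∈ P, LgH σ g X)
    {X : Module.End E (AlbL E a b c)} (hX : LgH σ g X) (h : X ∈ Submodule.span E P) :
    X ∈ P := by
  obtain ⟨n, t, Y, h1⟩ := Submodule.mem_span_set'.1 h
  have hσ : ∀ t : Fin n → E, ∑ i, t i • (Y i).1 = X → ∑ i, σ (t i) • (Y i).1 = X := by
    intro t ht
    refine LinearMap.ext fun v => eq_of_her (g := g) hσ2 fun y => ?_
    have h2 := map_sum (AddMonoidHom.mk' (fun x => her σ g x y) fun x x' => her_add_left x x' y)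
      (fun i => (σ (t i) • (Y i).1) v) Finset.univ
    have h3 := map_sum (AddMonoidHom.mk' (fun y => her σ g v y) (her_add_right v))
      (fun i => (t i • (Y i).1) y) Finset.univ
    simp only [AddMonoidHom.mk'_apply] at h2 h3
    rw [← LinearMap.sum_apply, ht] at h3
    rw [LinearMap.sum_apply, h2, eq_neg_of_add_eq_zero_left (hX.sk v y), h3,
      ← Finset.sum_neg_distrib]
    refine Finset.sum_congr rfl fun i _ => ?_
    rw [LinearMap.smul_apply, LinearMap.smul_apply, her_smul_left, her_smul_right,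
      eq_neg_of_add_eq_zero_left ((hL _ (Y i).2).sk v y), mul_neg]
  have h4 := hσ _ h1
  have h7 : X = ∑ i, ((2 : E)⁻¹ * (t i + σ (t i))) • (Y i).1 := by
    simp only [mul_smul, add_smul, ← Finset.smul_sum, Finset.sum_add_distrib]
    rw [h1, h4, ← two_smul E X, smul_smul, inv_mul_cancel₀ two_ne_zero, one_smul]
  rw [h7]
  refine Finset.sum_induction _ (· ∈ P) (fun A B hA hB => hadd A hA B hB) h0 fun i _ =>
    hsm _ ?_ _ (Y i).2
  simp only [map_mul, map_add, map_inv₀, map_ofNat, hσ2]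
  ring

theorem gn_tanH {X : Module.End E (AlbL E a b c)} (hX : X ∈ GnH σ g a b c) :
    X.restrictScalars ℚ ∈ (SH σ g a b c).toForms.tan := by
  have hfin : FiniteDimensional ℚ (AlbL E a b c) := Module.Finite.trans E _
  obtain ⟨a', b', c', i, j, l, ht, x, hs, rfl⟩ := hX
  obtain ⟨G, q, h1, h2, h3⟩ := curveH ht hs
  refine tan_of_point _ _ G h1 q h2 fun t hq => ?_
  obtain ⟨u, hu, h4⟩ := h3 t hq
  exact ⟨u.restrictScalars ℚ, mem_grpH hu, h4⟩

theorem res_injH {X Y : Module.End E (AlbL E a b c)}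
    (h : X.restrictScalars ℚ = Y.restrictScalars ℚ) : X = Y :=
  LinearMap.restrictScalars_injective ℚ h

theorem M2_one_neH : (M2 1 : Module.End E (AlbL E a b c)) ≠ 0 := by
  intro h
  have h1 := congrArg (fun f : Module.End E (AlbL E a b c) => (f e3).x2.fst.re) h
  simp [M2_apply, Alb.e3] at h1

variable [CharZero k] (hS : Inv σ g)

include hS

theorem comm_drH {Y : Module.End E (AlbL E a b c)}
    (h : ∀ X ∈ GnH σ g a b c, X * Y = Y * X) (X : Module.End E (AlbL E a b c)) (hX : Dr X) :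
    X * Y = Y * X :=
  gen_drH hS (V := Cm Y) (Cm_brk Y) h hX

theorem exists_noncommH : ∃ X ∈ GnH σ g a b c, ∃ Y ∈ GnH σ g a b c, X * Y ≠ Y * X := by
  by_contra hn
  push Not at hn
  have h1 : ∀ X : Module.End E (AlbL E a b c), Dr X → ∀ Y, Dr Y → Y * X = X * Y :=
    fun X hX Y hY => comm_drH hS
      (fun Z hZ => (comm_drH hS (fun Z' hZ' => hn Z' hZ' Z hZ) X hX).symm) Y hY
  apply M2_one_neH (E := E) (a := a) (b := b) (c := c)
  rw [← mul_one (1 : OctL E a b c), ← brk_P3_P1, h1 _ (dr_P1 1) _ (dr_P3 1), sub_self]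

theorem irrH (W : Submodule ℚ (Module.End ℚ (AlbL E a b c)))
    (hW : W ≤ (SH σ g a b c).toForms.lie) (h0 : W ≠ ⊥)
    (hst : ∀ X ∈ (SH σ g a b c).toForms.tan, ∀ Y ∈ W, X * Y - Y * X ∈ W) :
    W = (SH σ g a b c).toForms.lie := by
  have hL : ∀ Y : Module.End E (AlbL E a b c), Y.restrictScalars ℚ ∈ W → LgH σ g Y := by
    intro Y hY
    obtain ⟨Y', h1, h2⟩ := of_mem_lieH hS.two (hW hY)
    exact res_injH h2 ▸ h1
  have hb : ∀ X ∈ GnH σ g a b c, ∀ Y : Module.End E (AlbL E a b c),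
      Y.restrictScalars ℚ ∈ W → (X * Y - Y * X).restrictScalars ℚ ∈ W :=
    fun X hX Y hY => hst _ (gn_tanH hX) _ hY
  set P : Set (Module.End E (AlbL E a b c)) :=
    {Y | ∀ t : E, σ t = t → (t • Y).restrictScalars ℚ ∈ W} with hP
  have p1 : ∀ Y ∈ P, Y.restrictScalars ℚ ∈ W := fun Y hY => by
    have h := hY 1 (map_one σ)
    rwa [one_smul] at h
  have p2 : ∀ X ∈ GnH σ g a b c, ∀ Y : Module.End E (AlbL E a b c),
      Y.restrictScalars ℚ ∈ W → X * Y - Y * X ∈ P := by
    intro X hX Y hY t h2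
    have h := hb _ (GnH_smul hX h2) Y hY
    rwa [smul_mul_assoc, mul_smul_comm, ← smul_sub] at h
  have p3 : ∀ Y ∈ Submodule.span E P, Dr Y := by
    intro Y hY
    induction hY using Submodule.span_induction with
    | mem Y hY => exact (hL Y (p1 Y hY)).dr
    | zero => exact fun x => tf_zero_right _
    | add Y Z _ _ h1 h2 => exact h1.add h2
    | smul t Y _ h1 => exact h1.smul t
  let S : Submodule E (Module.End E (AlbL E a b c)) :=
    { carrier := {X | ∀ Y ∈ Submodule.span E P, X * Y - Y * X ∈ Submodule.span E P}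
      zero_mem' := fun Y _ => by
        rw [zero_mul, mul_zero, sub_zero]
        exact Submodule.zero_mem _
      add_mem' := fun {X X'} h h' Y hY => by
        rw [add_mul, mul_add, add_sub_add_comm]
        exact Submodule.add_mem _ (h Y hY) (h' Y hY)
      smul_mem' := fun t X h Y hY => by
        rw [smul_mul_assoc, mul_smul_comm, ← smul_sub]
        exact Submodule.smul_mem _ t (h Y hY) }
  have p4 : ∀ X : Module.End E (AlbL E a b c), Dr X → X ∈ S := by
    intro X hX
    refine gen_drH hS (V := S) (fun A hA B hB Y hY => ?_) (fun A hA Y hY => ?_) hX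
    · have h := Submodule.sub_mem _ (hA _ (hB Y hY)) (hB _ (hA Y hY))
      have h1 : A * (B * Y - Y * B) - (B * Y - Y * B) * A -
          (B * (A * Y - Y * A) - (A * Y - Y * A) * B) =
          (A * B - B * A) * Y - Y * (A * B - B * A) := by noncomm_ring
      rwa [h1] at h
    · induction hY using Submodule.span_induction with
      | mem Y hY => exact Submodule.subset_span (p2 A hA Y (p1 Y hY))
      | zero =>
        rw [zero_mul, mul_zero, sub_zero]
        exact Submodule.zero_mem _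
      | add Y Z _ _ h1 h2 =>
        rw [add_mul, mul_add, add_sub_add_comm]
        exact Submodule.add_mem _ h1 h2
      | smul t Y _ h1 =>
        rw [smul_mul_assoc, mul_smul_comm, ← smul_sub]
        exact Submodule.smul_mem _ t h1
  obtain ⟨Y, hY, hY0⟩ : ∃ Y ∈ Submodule.span E P, Y ≠ 0 := by
    obtain ⟨Y0, h1, h2⟩ := Submodule.exists_mem_ne_zero_of_ne_bot h0
    obtain ⟨Y, h3, rfl⟩ := of_mem_lieH hS.two (hW h1)
    by_contra hn
    push Not at hn
    apply h2
    rw [eq_zero_of_comm h3.dr (comm_drH hS fun X hX =>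
      sub_eq_zero.1 (hn _ (Submodule.subset_span (p2 X hX Y h1))))]
    rfl
  refine le_antisymm hW fun X0 hX0 => ?_
  obtain ⟨X, hX, rfl⟩ := of_mem_lieH hS.two hX0
  refine p1 X (descentH (P := P) hS.two (fun t _ => ?_) (fun A hA B hB t h2 => ?_)
    (fun s s2 A hA t h2 => ?_) (fun A hA => hL A (p1 A hA)) hX
    (dr_simple p4 p3 hY hY0 hX.dr))
  · rw [smul_zero]
    exact W.zero_mem
  · rw [smul_add]
    exact W.add_mem (hA t h2) (hB t h2)
  · rw [smul_smul]
    exact hA _ (by rw [map_mul, h2, s2])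

theorem goodH (han : ∀ x : AlbL E a b c, her σ g x x = 0 → x = 0) :
    (SH σ g a b c).toForms.Good := by
  have hfin : FiniteDimensional ℚ (AlbL E a b c) := Module.Finite.trans E _
  obtain ⟨X, hX, Y, hY, hXY⟩ := exists_noncommH (a := a) (b := b) (c := c) hS
  refine ⟨fun u hu => ?_, fun x hx => ?_, ⟨_, gn_tanH hX, fun h => hXY ?_⟩, irrH hS,
    ⟨_, tan_le_lie _ (gn_tanH hX), _, tan_le_lie _ (gn_tanH hY), fun h =>
      hXY (res_injH h)⟩, fun n hn => ?_⟩
  · obtain ⟨φ, hφ, h1⟩ := of_mem_grpH hS.two hu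
    refine abs_det_eq_one ((LinearMap.mk₂ ℚ (fun x y => her σ g x y) her_add_left
      (fun t x y => ?_) her_add_right (fun t x y => ?_)).compr₂ (Algebra.trace ℚ E))
      (fun y hy => eq_zero_of_her (σ := σ) (g := g) fun x => ?_) _ fun x y => ?_
    · rw [← Rat.cast_smul_eq_qsmul E, her_smul_left, Rat.smul_def]
    · rw [← Rat.cast_smul_eq_qsmul E, her_smul_right, map_ratCast, Rat.smul_def]
    · refine (traceForm_nondegenerate ℚ E).1 _ fun t => ?_
      have h2 : Algebra.trace ℚ E (her σ g (t • x) y) = 0 := hy (t • x)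
      rwa [her_smul_left, mul_comm] at h2
    · change Algebra.trace ℚ E (her σ g (u x) (u y)) = Algebra.trace ℚ E (her σ g x y)
      rw [← h1, ← h1, hφ.2]
  · exact EF.aniso _ (i := true) two_ne_zero fun h => hx (han x h)
  · rw [res_injH (Y := 0) h, zero_mul, mul_zero]
  · obtain ⟨φ, hφ, h1⟩ := of_mem_grpH hS.two n.2
    obtain ⟨t, ht⟩ := scalar_of_comm (Y := φ.toLinearMap) (comm_drH hS fun Z hZ =>
      LinearMap.ext fun v => by
        have h2 := congrArg (fun f : Module.End ℚ (AlbL E a b c) => f v)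
          (hn _ (tan_le_lie _ (gn_tanH hZ)))
        change Z (φ v) = φ (Z v)
        rw [h1, h1]
        exact h2.symm)
    rw [Subgroup.mem_center_iff]
    intro m
    obtain ⟨ψ, -, h2⟩ := of_mem_grpH hS.two m.2
    refine Subtype.ext (LinearEquiv.ext fun v => ?_)
    change m.1 (n.1 v) = n.1 (m.1 v)
    rw [← h1, ← h1, ← h2, ← h2]
    exact (congrArg ψ (ht v)).trans ((map_smul ψ t v).trans (ht _).symm)

omit hS in
/-- The group has a good family of forms. -/
theorem hasGood_GE {g : Fin 3 → kˣ} (h2 : ∀ t, σ (σ t) = t) (hne : ∃ t, σ t ≠ t)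
    (han : ∀ x : AlbL E a b c, herm σ g x x = 0 → x = 0) : HasGood (GE σ a b c g) := by
  refine ⟨AlbL E a b c, inferInstance, inferInstance, Module.Finite.trans E _,
    (SH σ (upG E g) a b c).toForms, goodH ⟨h2, hne, fun i => σ.commutes _⟩ han, ⟨?_⟩⟩
  refine MulEquiv.ofBijective
    ({ toFun := fun φ => ⟨φ.1.restrictScalars ℚ, mem_grpH φ.2⟩
       map_one' := rfl
       map_mul' := fun _ _ => rfl } : GE σ a b c g →* (SH σ (upG E g) a b c).toForms.grp)
    ⟨fun φ ψ h => ?_, fun u => ?_⟩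
  · exact Subtype.ext (LinearEquiv.ext fun x =>
      congrArg (fun f : (SH σ (upG E g) a b c).toForms.grp => f.1 x) h)
  · obtain ⟨φ, hφ, h⟩ := of_mem_grpH h2 u.2
    exact ⟨⟨φ, hφ⟩, Subtype.ext (LinearEquiv.ext h)⟩

end Vale.Agent.P011N.X2
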