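import Vale.Agent.P011N.X2.Big
import Vale.Agent.P011N.X2.Good
import Vale.Agent.P011N.E0.Fin
import Vale.Agent.P011N.F.LG
import Vale.Agent.P011N.F.Asm0
import Vale.Agent.P011N.A1.MainQ

/-!
The normal subgroups of the anisotropic outer groups of type `E₆` with trivial Tits class.
-/

open Module

namespace Vale.Agent.P011N.X2

open Vale.Agent.P011N Vale.Agent.P011N.E0
open Vale.Agent.P011 Vale.Agent.P011.MPQ Vale.Agent.P011.D4 Vale.Agent.P011.E6 Vale.Agent.P011.E6H
open Vale.Agent.P011.H900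

/-- Outer groups of type `E₆` with trivial Tits class; the octonions form a division algebra over
the fixed field of `s` only. -/
def ClE1' (Φ : ∀ (G : Type) [Group G], Prop) : Prop :=
  ∀ (F : Type) [Field F] [NumberField F] (s : F → F) (a b c : F) (g : Fin 3 → F),
    Aut 2 s → Dvn [s] [s] a b c → (∀ i, s (g i) = g i) →
    (∀ x : Al a b, her c s g x x = 0 → x = 0) →
    Φ (grp fun f : Al a b → Al a b => Cub c f ∧ Her c s g f)

/-- The theorem in the old letters. -/
theorem simp_GE {k K : Type} [Field k] [NumberField k] [Field K] [NumberField K] [Algebra k K]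
    (h2 : finrank k K = 2) {σ : K ≃ₐ[k] K} (hσ : ∃ x, σ x ≠ x) {a b c : kˣ}
    (hdiv : Oct.Division a b c) {g : Fin 3 → kˣ}
    (han : ∀ x : AlbL K a b c, herm σ g x x = 0 → x = 0) : Simp (GE σ a b c g) := by
  by_cases h : Oct.Division (up K a) (up K b) (up K c)
  · exact e6_normal' h2 (ne_one hσ) h han
  · refine F.simp_of F.lgThm (hasGood_GE (sigma_sigma h2 (ne_one hσ)) hσ han)
      (bigTop_GE A1.mfq h2 (ne_one hσ) han hdiv fun w hw => h fun x hx => ?_)
    by_contra h0
    have h1 := DefAt.of_neg (τ := w) (a := up K a) (b := up K b) (c := up K c) hw.1 hw.2.1 hw.2.2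
      x h0
    rw [hx, map_zero] at h1
    exact lt_irrefl _ h1

theorem simp_GHer {k K : Type} [Field k] [NumberField k] [Field K] [NumberField K] [Algebra k K]
    (h2 : finrank k K = 2) {σ : K ≃ₐ[k] K} (hσ : ∃ x, σ x ≠ x) {a b c : kˣ}
    (hdiv : Oct.Division a b c) {g : Fin 3 → kˣ}
    (han : ∀ x : AlbL K a b c, E6H.her σ (upG K g) x x = 0 → x = 0) :
    Simp (GHer σ (upG K g) a b c) := by
  rw [gp_eq]
  exact isoInv_simp _ _ gpE.symm (simp_GE h2 hσ hdiv han)

/-- **Block X2.** -/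
theorem clE1' : ClE1' Simp := by
  intro F _ _ s a b c g hs hd hg ha
  have hA : IsA s := hs.isA two_ne_zero
  obtain ⟨k, _, _, _, hfin, hgal, hfix, haut, hcl⟩ := exists_base [s] (by simpa using hA)
  obtain ⟨ha0, hb0, hc0⟩ := hd.ne (by simpa using hA)
  have hg0 := g_ne hA ha
  obtain ⟨a, rfl⟩ := unit_of hfix (by simpa using (hd.1 s (by simp)).1) ha0
  obtain ⟨b, rfl⟩ := unit_of hfix (by simpa using (hd.1 s (by simp)).2.1) hb0
  obtain ⟨c, rfl⟩ := unit_of hfix (by simpa using (hd.1 s (by simp)).2.2) hc0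
  have hg1 : ∀ i, ∃ u : kˣ, ((up F u : Fˣ) : F) = g i := fun i =>
    unit_of hfix (by simpa using hg i) (hg0 i)
  choose g' hg' using hg1
  obtain rfl : (fun i => ((upG F g' i : Fˣ) : F)) = g := funext hg'
  obtain ⟨σ, rfl⟩ := haut s (by simp)
  have h2 : finrank k F = 2 := rank2 hcl hs.exists_ne hs.two
  have h3 := simp_GHer h2 (σ := σ) hs.exists_ne (div_of haut hd) (g := g') (fun x hx => by
    obtain ⟨x, rfl⟩ := (aeL a b c).surjective x
    rw [← her_eq] at hx
    rw [ha x hx]
    rfl)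
  exact isoInv_simp _ _ (gEquiv (aeL a b c) _ _ (her_iff σ (upG F g'))) h3

end Vale.Agent.P011N.X2
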