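import Vale.Agent.P011N.X2.GoodQ
import Vale.Agent.P011.E6.Rel3

/-!
A normal subgroup of the group of related triples which contains the automorphisms is everything.
-/

open NumberField

namespace Vale.Agent.P011N.X2

open Vale.Agent.P011 Vale.Agent.P011.MPQ Vale.Agent.P011.D4 Vale.Agent.P011.D4.Oct
open Vale.Agent.P011.E6 Vale.Agent.P011.E6.Rl

section gen

variable {F : Type} [Field F] {a b c a' b' : Fˣ}

theorem tri_cyc (x y z : Oct a b c) : bil (x * y * z) 1 = bil (y * z * x) 1 := by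
  rw [tri_bil, tri_bil, bil_mul_left, bil_mul_left' y z]

/-- The cyclic permutation of related triples. -/
def rot (a b c : Fˣ) : Rel a b c →* Rel a b c where
  toFun r := ⟨(r.1.2.2, r.1.1, r.1.2.1), r.2.2.2.1, r.2.1, r.2.2.1, fun x y z => by
    change bil (r.1.2.2 x * r.1.1 y * r.1.2.1 z) 1 = _
    rw [tri_cyc, r.2.2.2.2, tri_cyc x]⟩
  map_one' := rfl
  map_mul' _ _ := rfl

theorem hat_hat (t : SL1 a b) : hat (hat t) = t := by
  apply Subtype.ext
  apply Units.ext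
  rw [val_hat, val_hat]
  ext <;> simp

variable [NeZero (2 : F)]

theorem A1_mem {N : Subgroup (Rel a b c)} (hN : N.Normal) (hA : ∀ g, autR a b c g ∈ N)
    (Φ : Oct a' b' (-1) ≃ₗ[F] Oct a b c) (hΦ : ∀ x y, Φ (x * y) = Φ x * Φ y) (t : SL1 a' b') :
    conjR Φ hΦ (A1 (-1) t) ∈ N := by
  obtain ⟨Θ, q1, q2, -, -⟩ := exists_emb (trip_s a' b')
  have hs : ∀ x y, Θ.symm (x * y) = Θ.symm x * Θ.symm y := by
    intro x y
    apply Θ.injective
    rw [q2, Θ.apply_symm_apply, Θ.apply_symm_apply, Θ.apply_symm_apply]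
  have hΨ : ∀ x y, (Θ.symm.trans Φ) (x * y) = (Θ.symm.trans Φ) x * (Θ.symm.trans Φ) y := by
    intro x y
    rw [LinearEquiv.trans_apply, hs, hΦ]
    rfl
  have h1 : conjR Φ hΦ (A1 (-1) t) = conjR (Θ.symm.trans Φ) hΨ (conjR Θ q2 (A1 (-1) t)) := by
    have e : ∀ (f : OE a' b' (-1)) x, Φ (f (Φ.symm x)) =
        Φ (Θ.symm (Θ (f (Θ.symm (Θ (Φ.symm x)))))) := by
      intro f x
      rw [Θ.symm_apply_apply, Θ.symm_apply_apply]
    exact Rel.ext (e (A1 (-1) t).1.1) (e (A1 (-1) t).1.2.1) (e (A1 (-1) t).1.2.2)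
  have h2 := S_long q1 q2 (hat t)
  rw [hat_hat, ← eq_mul_inv_iff_mul_eq] at h2
  rw [h1, h2, map_mul, map_mul, map_inv]
  exact hN.conj_mem _ (hA (conjA _ hΨ (long a' b' (-1) (hat t)))) _

theorem A2_mem {N : Subgroup (Rel a b c)} (hN : N.Normal) (hA : ∀ g, autR a b c g ∈ N)
    (Φ : Oct a' b' (-1) ≃ₗ[F] Oct a b c) (hΦ : ∀ x y, Φ (x * y) = Φ x * Φ y) (t : SL1 a' b') :
    conjR Φ hΦ (A2 (-1) t) ∈ N :=
  A1_mem (N := N.comap (rot a b c)) (hN.comap _) hA Φ hΦ t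

end gen

variable {k : Type} [Field k] [NumberField k] {a b c : kˣ}

/-- Coordinates with `c = -1`. -/
theorem exists_neg_one (hdiv : Division a b c) {i j : Oct a b c} (hi : Good i)
    (hj : star j = -j) (hj0 : j ≠ 0) (hij : dot i j = 0) :
    ∃ (a' b' : kˣ) (Ψ : Oct a' b' (-1) ≃ₗ[k] Oct a b c) (_ : ∀ x y, Ψ (x * y) = Ψ x * Ψ y),
      Ψ gj = j := by
  obtain ⟨l, a', b', c', ht⟩ := exists_trip2 hdiv hi.1 hi.2.1 hj hj0 hij
  obtain ⟨Φ, h1, h2, h3, h4⟩ := exists_emb ht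
  have hni : norm i = -(a' : k) := ht.triple.norm_i
  obtain ⟨q, hq⟩ := exists_nrd (a := a') (b := b') (-c')⁻¹ (by
    intro φ ha hb
    have hd : Dfn φ a b c := by
      by_contra hd
      have := hi.2.2 φ hd
      rw [hni, map_neg] at this
      linarith
    rw [Units.val_inv_eq_inv_val, map_inv₀, Units.val_neg, map_neg]
    exact inv_pos.2 (neg_pos.2 (hd.trip ht).2.2))
  have hqc : (c' : k) * nrd q = -1 := by
    rw [hq, Units.val_inv_eq_inv_val, Units.val_neg]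
    have := c'.ne_zero
    field_simp
  have hst : Trip a' b' (-1) (gi : Oct a' b' c') gj ⟨0, q⟩ := by
    constructor
    · apply ext8 <;> simp [gi]
    · apply ext8 <;> simp [gj]
    · apply ext8 <;> simp
    · apply ext8 <;> simp [gi]
    · apply ext8 <;> simp [gj]
    · simp only [nrd] at hqc
      apply ext8
      · simp
        linear_combination hqc
      · simp
        ring
      · simp
        ring
      · simp
        ring
      all_goals simp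
    · simp [dot, gi, gj]
    · simp [dot, gi]
    · simp [dot, gj]
    · simp [dot, gi, gj]
  have ej : Φ gj = j := by
    rw [h1]
    simp [Oct.emb, qemb, gj]
  obtain ⟨Ψ, p1, p2, -, -⟩ := exists_emb (trip_map hst h2)
  refine ⟨a', b', Ψ, p2, ?_⟩
  rw [p1]
  simp [Oct.emb, qemb, gj]
  exact ej

/-- Coordinates with `c = -1` adapted to an element of norm one. -/
theorem exists_coordN (hdiv : Division a b c) {f : Oct a b c} (hf : norm f = 1) :
    ∃ (a' b' : kˣ) (Φ : Oct a' b' (-1) ≃ₗ[k] Oct a b c) (_ : ∀ x y, Φ (x * y) = Φ x * Φ y)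
      (t : SL1 a' b'), Φ ⟨((t : (Qt a' b')ˣ) : Qt a' b'), 0⟩ = f := by
  obtain ⟨i, j, s, hi, hj, hj0, hij, e⟩ : ∃ (i j : Oct a b c) (s : k), Good i ∧ star j = -j ∧
      j ≠ 0 ∧ dot i j = 0 ∧ f = f.fst.re • 1 + s • j := by
    by_cases h : f - f.fst.re • 1 = 0
    · obtain ⟨x, y, hx, hy, hxy⟩ := exists_good_pair hdiv
      exact ⟨x, y, 0, hx, hy.1, hy.2.1, hxy, by rw [zero_smul, add_zero, ← sub_eq_zero, h]⟩
    · obtain ⟨z, hz, hz1⟩ := exists_good_perp hdiv (f - f.fst.re • 1)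
      refine ⟨z, _, 1, hz, ?_, h, hz1, by rw [one_smul, add_sub_cancel]⟩
      apply ext8 <;> simp
  obtain ⟨a', b', Φ, hΦ, ej⟩ := exists_neg_one hdiv hi hj hj0 hij
  have e1 : Φ ⟨⟨f.fst.re, 0, s, 0⟩, 0⟩ = f := by
    have e2 : (⟨⟨f.fst.re, 0, s, 0⟩, 0⟩ : Oct a' b' (-1)) = f.fst.re • 1 + s • gj := by
      apply ext8 <;> simp [gj]
    rw [e2, map_add, map_smul, map_smul, hom_one hΦ, ej, ← e]
  have hn : nrd (⟨f.fst.re, 0, s, 0⟩ : Qt a' b') = 1 := by
    have e3 := congrArg Oct.norm e1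
    rw [hom_norm hΦ, hf] at e3
    rw [← e3]
    simp [Oct.norm, nrd]
  obtain ⟨t, ht⟩ := exists_SL1' hn
  exact ⟨a', b', Φ, hΦ, t, by rw [ht, e1]⟩

/-- A normal subgroup of the group of related triples which contains the automorphisms. -/
theorem rel_mem (hdiv : Division a b c) {N : Subgroup (Rel a b c)} (hN : N.Normal)
    (hA : ∀ g, autR a b c g ∈ N) (r : Rel a b c) : r ∈ N := by
  obtain ⟨n1, n2, n3, H⟩ := r.2
  obtain ⟨a', b', Φ, hΦ, t, ht⟩ := exists_coordN hdiv (f := r.1.1 1) (by rw [n1, Oct.norm_one])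
  set m := conjR Φ hΦ (A2 (-1) t) with hm
  have hmN : m ∈ N := A2_mem hN hA Φ hΦ t
  have e1 : (m * r).1.1 1 = 1 := by
    change Φ (mulE (-1) (t : (Qt a' b')ˣ)⁻¹ 1 1 1 (Φ.symm (r.1.1 1))) = 1
    rw [← ht, Φ.symm_apply_apply, ← hom_one hΦ]
    congr 1
    ext1
    · simp
    · simp
  obtain ⟨p1, p2, p3, H'⟩ := (m * r).2
  obtain ⟨a'', b'', Ψ, hΨ, s, hs⟩ := exists_coordN hdiv (f := (m * r).1.2.1 1)
    (by rw [p2, Oct.norm_one])
  set m' := conjR Ψ hΨ (A1 (-1) s⁻¹) with hm'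
  have hmN' : m' ∈ N := A1_mem hN hA Ψ hΨ s⁻¹
  have e2 : (m' * (m * r)).1.1 1 = 1 := by
    change Ψ (mulE (-1) 1 1 1 ((s⁻¹ : SL1 a'' b'') : (Qt a'' b'')ˣ)
      (Ψ.symm ((m * r).1.1 1))) = 1
    rw [e1, ← hom_one hΨ, Ψ.symm_apply_apply]
    congr 1
    ext1
    · simp
    · simp
  have e3 : (m' * (m * r)).1.2.1 1 = 1 := by
    change Ψ (mulE (-1) 1 ((s⁻¹ : SL1 a'' b'') : (Qt a'' b'')ˣ) 1 1
      (Ψ.symm ((m * r).1.2.1 1))) = 1
    rw [← hs, Ψ.symm_apply_apply, ← hom_one hΨ]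
    congr 1
    ext1
    · simp
    · simp
  obtain ⟨g, hg⟩ := rel_aut _ e2 e3
  have h1 := hA g
  rw [hg] at h1
  exact (mul_mem_cancel_left hmN).1 ((mul_mem_cancel_left hmN').1 h1)

end Vale.Agent.P011N.X2
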