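import Vale.Agent.P011N.X2.Fix
import Vale.Agent.P011N.X2.Spin
import Vale.Agent.P011N.E1.Leaf1
import Vale.Agent.P011.E6.H637.Index

/-!
Groups of type `²E₆` whose octonion algebra splits at the real places of the quadratic extension
have no proper big subgroup.
-/

open NumberField Matrix

namespace Vale.Agent.P011N.X2

open Vale.Agent.P011N
open Vale.Agent.P011 Vale.Agent.P011.MPQ Vale.Agent.P011.D4 Vale.Agent.P011.D4.Oct
open Vale.Agent.P011.E6 Vale.Agent.P011.E6.Alb

/-- A real place where the octonion algebra is definite and the weights have the same sign. -/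
theorem exists_tauB {k : Type} [Field k] [NumberField k] {a b c : kˣ} {g : Fin 3 → kˣ}
    (hdiv : Division a b c) (hanis : ∀ x : Alb a b c, tf (wt g x) x = 0 → x = 0) :
    ∃ τ : k →+* ℝ, Dfn τ a b c ∧ ((∀ i, 0 < τ (g i)) ∨ ∀ i, τ (g i) < 0) := by
  by_contra hcon
  have hne : ∀ (φ : k →+* ℝ) (u : kˣ), φ u ≠ 0 := fun φ u => (map_ne_zero φ).2 u.ne_zero
  obtain ⟨x, y, z, h⟩ := exists_pos3 (-(g 1 * g 2)) (-(g 2 * g 0)) (-(g 0 * g 1))
  simp only [Units.val_neg, Units.val_mul] at h
  set S : k := -((g 1 : k) * g 2) * x ^ 2 + -((g 2 : k) * g 0) * y ^ 2 +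
    -((g 0 : k) * g 1) * z ^ 2 with hS
  have hpos : ∀ φ : k →+* ℝ, Dfn φ a b c → 0 < φ S := by
    intro φ hφ
    refine h φ fun h1 => hcon ⟨φ, hφ, ?_⟩
    simp only [map_neg, map_mul, Left.neg_neg_iff] at h1
    obtain ⟨-, e1, e2⟩ := h1
    rcases lt_or_gt_of_ne (hne φ (g 0)) with h0 | h0
    · refine Or.inr fun i => ?_
      fin_cases i
      · exact h0
      · exact neg_of_mul_pos_right e2 h0.le
      · exact neg_of_mul_pos_left e1 h0.le
    · refine Or.inl fun i => ?_
      fin_cases i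
      · exact h0
      · exact pos_of_mul_pos_right e2 h0.le
      · exact pos_of_mul_pos_left e1 h0.le
  obtain ⟨w, hw⟩ := exists_dfn hdiv
  have hS0 : S ≠ 0 := fun h0 => by
    have := hpos w hw
    rw [h0, map_zero] at this
    exact lt_irrefl _ this
  obtain ⟨a', b', c', i, j, l, ht, hgood⟩ := Lit.exists_good hdiv
  obtain ⟨q, hq⟩ := exists_nrd (a := a') (b := b') (Units.mk0 ((g 0 : k) ^ 2 / (2 * S))
    (div_ne_zero (pow_ne_zero 2 (g 0).ne_zero) (mul_ne_zero two_ne_zero hS0))) (by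
      intro φ ha hb
      rw [Units.val_mk0, map_div₀, map_pow, map_mul, map_ofNat]
      exact div_pos (sq_pos_of_ne_zero (hne φ _)) (mul_pos two_pos (hpos φ ((hgood φ ha hb).of_trip ht))))
  obtain ⟨Φ, -, -, -, hΦ⟩ := exists_emb ht
  have hn : Oct.norm (Φ ⟨q, 0⟩) = (g 0 : k) ^ 2 / (2 * S) := by
    rw [hΦ, Oct.norm, hq]
    simp [nrd]
  generalize Φ ⟨q, 0⟩ = u at hn
  have h1 := hanis ⟨1, 0, 0, x • u, y • u, z • u⟩ (by
    simp only [tf, wt, bil_smul_left, bil_smul_right, bil_self, hn]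
    field_simp
    rw [hS]
    ring)
  exact one_ne_zero (congrArg Alb.d1 h1)

variable {k K : Type} [Field k] [NumberField k] [Field K] [NumberField K] [Algebra k K]
  {σ : K ≃ₐ[k] K} {a b c : kˣ} {g : Fin 3 → kˣ}

/-- The norm-one group in the special unitary group. -/
def slU (σ : K ≃ₐ[k] K) (c : kˣ) (g : Fin 3 → kˣ) (hab : Aniso (up K a) (up K b)) :
    SL1 a b →* H64.SUQ σ a b g two_ne_zero hab where
  toFun t := ⟨upU K (Rl.diagU ![t, 1, 1]), isU_upU σ (Rl.unitary_diagU _ g),
    nu_upU hab c (Rl.unitary_diagU _ g)⟩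
  map_one' := by
    apply Subtype.ext
    change upU K _ = 1
    rw [← map_one (upU K)]
    congr 1
    apply Units.ext
    change Matrix.diagonal _ = 1
    rw [← Matrix.diagonal_one]
    congr 1
    funext i
    fin_cases i <;> rfl
  map_mul' s t := by
    apply Subtype.ext
    change upU K _ = upU K _ * upU K _
    rw [← map_mul]
    congr 1
    apply Units.ext
    change Matrix.diagonal _ = Matrix.diagonal _ * Matrix.diagonal _
    rw [Matrix.diagonal_mul_diagonal]
    congr 1
    funext i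
    fin_cases i
    · rfl
    · exact (mul_one _).symm
    · exact (mul_one _).symm

omit [NumberField k] in
theorem slU_injective (hab : Aniso (up K a) (up K b)) :
    Function.Injective (slU σ c g hab) := by
  intro s t h
  have h1 := congrArg (fun m : H64.SUQ σ a b g two_ne_zero hab =>
    (m.1 : Matrix (Fin 3) (Fin 3) (Qt (up K a) (up K b))) 0 0) h
  exact Subtype.ext (Units.ext (qup_injective h1))

theorem wide_suq (hQ : MFQ) (c : kˣ) (hab : Aniso (up K a) (up K b)) :
    ∀ S : Subgroup (H64.SUQ σ a b g two_ne_zero hab), Big S → ¬ S ≤ Subgroup.center _ := by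
  intro S hS hle
  have h0 : Aniso a b := fun x hx => by
    apply qup_injective (K := K)
    rw [qup_zero]
    exact hab _ (by rw [nrd_qup, hx, map_zero])
  refine (hS.comap (slU σ c g hab)).not_le_center (hQ k a b h0).2 fun x hx => ?_
  rw [Subgroup.mem_center_iff]
  intro y
  apply slU_injective (σ := σ) (c := c) (g := g) hab
  rw [map_mul, map_mul]
  exact Subgroup.mem_center_iff.1 (hle hx) _

variable (hQ : MFQ) (h2 : Module.finrank k K = 2) (hσ : σ ≠ 1)
  (hanis : ∀ x : AlbL K a b c, herm σ g x x = 0 → x = 0)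

include hQ h2 hσ hanis

theorem hasB_of_big {N : Subgroup (GE σ a b c g)} (hN : Big N) :
    HasB σ g (N.map (GE σ a b c g).subtype) := by
  intro a' b' c' g' ψ hψ hab m hm hn φ hφ
  have hS := hN.comap (H64.coordHom hψ two_ne_zero hab)
  have h1 := (su_normal h2 hσ two_ne_zero hab (H64.anis_coord hψ hanis) _ hS.1).resolve_left
    (wide_suq hQ c' hab _ hS)
  have h3 : (⟨m, hm, hn⟩ : H64.SUQ σ a' b' g' two_ne_zero hab) ∈
      N.comap (H64.coordHom hψ two_ne_zero hab) := h1 ▸ Subgroup.mem_top _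
  exact ⟨_, h3, (H64.eq_coordHom hψ two_ne_zero hab ⟨m, hm, hn⟩ hφ).symm⟩

theorem bigTop_pos (hdiv : Division a b c)
    (hno : ∀ w : K →+* ℝ, ¬ Dfn (w.comp (algebraMap k K)) a b c)
    {τ : k →+* ℝ} (hτ : Dfn τ a b c) (hτg : ∀ i, 0 < τ (g i)) : BigTop (GE σ a b c g) := by
  intro N hN
  rw [eq_top_iff]
  intro φ _
  let R : Rl.Rel a b c →* GE σ a b c g :=
    (Rl.rhom K a b c).codRestrict _ fun r => Rl.rlin_mem σ g r
  have h1 : ∀ r, R r ∈ N := fun r => rel_mem hdiv (N := N.comap R) (hN.1.comap R)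
    (fun u => E1.mem_of_bigTop (E1.bigTop_autC hQ hdiv) (R.comp (Rl.autR a b c)) hN u) r
  obtain ⟨n, hn, h3⟩ := coreB h2 hσ hdiv hanis (hasB_of_big hQ h2 hσ hanis hN) hτ hτg hno
    (Subgroup.map_subtype_le N) (fun r => ⟨R r, h1 r, rfl⟩) φ.2
  exact (Subtype.ext h3 : n = φ) ▸ hn

/-- There is no proper big subgroup. -/
theorem bigTop_GE (hdiv : Division a b c)
    (hno : ∀ w : K →+* ℝ, ¬ Dfn (w.comp (algebraMap k K)) a b c) : BigTop (GE σ a b c g) := by
  obtain ⟨τ, hτ, h | h⟩ := exists_tauB hdiv (hanis_down hanis)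
  · exact bigTop_pos hQ h2 hσ hanis hdiv hno hτ h
  · have e : ∀ x y : AlbL K a b c, herm σ (-g) x y = herm σ g x y := by
      intro x y
      have e1 : ∀ i, (upG K (-g) i : K) = -(upG K g i : K) := fun i => map_neg (algebraMap k K) _
      simp only [herm, wt, e1, neg_sq, neg_mul_neg]
    have e2 : GE σ a b c g = GE σ a b c (-g) := by
      ext φ
      change _ ∧ _ ↔ _ ∧ _
      simp only [e]
    rw [e2]
    refine bigTop_pos hQ h2 hσ (fun x hx => hanis x ((e x x).symm.trans hx)) hdiv hno hτ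
      fun i => ?_
    rw [Pi.neg_apply, Units.val_neg, map_neg]
    exact neg_pos.2 (h i)

end Vale.Agent.P011N.X2
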