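import Vale.Agent.P011N.X2.GoodQ
import Vale.Agent.P011.E6.FixOne
import Vale.Agent.P011.E6.FixE
import Vale.Agent.P011.E6.Fix9
import Vale.Agent.P011.E6.H64.Glue
import Vale.Agent.P011.H500.Rl.Nu

/-!
Groups of type `²E₆` whose octonion algebra splits at the real places of the quadratic extension:
the base point and the diagonal idempotents.
-/

open NumberField Matrix

namespace Vale.Agent.P011N.X2

open Vale.Agent.P011 Vale.Agent.P011.MPQ Vale.Agent.P011.D4 Vale.Agent.P011.D4.Oct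
open Vale.Agent.P011.E6 Vale.Agent.P011.E6.Alb

section coord

variable {k K : Type} [Field k] [Field K] [Algebra k K] {σ : K ≃ₐ[k] K} {a b c a' b' c' : kˣ}
  {g g' : Fin 3 → kˣ}

theorem nu_neG {F : Type} [Field F] {a b : Fˣ} (h2 : (2 : F) ≠ 0)
    (m : (Matrix (Fin 3) (Fin 3) (Qt a b))ˣ) : nu (m : Matrix (Fin 3) (Fin 3) (Qt a b)) ≠ 0 := by
  intro h0
  have h := H500.Rl.nu_mulG h2 ((m⁻¹ : (Matrix (Fin 3) (Fin 3) (Qt a b))ˣ) :
      Matrix (Fin 3) (Fin 3) (Qt a b)) m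
  rw [H64.units_inv_mul, H64.nu_one, h0, mul_zero] at h
  exact one_ne_zero h

theorem isCoord_actG (h2 : (2 : K) ≠ 0) {m : (Matrix (Fin 3) (Fin 3) (Qt (up K a) (up K b)))ˣ}
    {κ : Qt (up K a) (up K b)}
    (hm : IsU σ g g' (m : Matrix (Fin 3) (Fin 3) (Qt (up K a) (up K b))))
    (hmσ : (m : Matrix (Fin 3) (Fin 3) (Qt (up K a) (up K b))).map (qmap σ) = m)
    (hκσ : qmap σ κ = κ)
    (hκ : nrd κ = nu (m : Matrix (Fin 3) (Fin 3) (Qt (up K a) (up K b))))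
    (Ψ : AlbL K a b c ≃ₗ[K] AlbL K a b c) (h : ∀ x, Ψ x = act m κ x) : IsCoord σ g g' Ψ := by
  have hu : H64.umap σ m = m := Units.ext hmσ
  have hm' : (m : Matrix (Fin 3) (Fin 3) (Qt (up K a) (up K b)))ᴴ *
      dg (up K a) (up K b) (upG K g) * (m : Matrix (Fin 3) (Fin 3) (Qt (up K a) (up K b))) =
      dg (up K a) (up K b) (upG K g') := by
    have h3 := hm
    rw [IsU, hmσ] at h3
    exact h3
  have h1 : act m κ (Alb.one _ _ (up K c) (upG K g')) = Alb.one _ _ _ (upG K g) :=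
    H64.act_one h2 hm' κ
  refine ⟨⟨_, nu_neG h2 m, fun x => ?_⟩, fun x y => ?_, fun x => ?_, ?_⟩
  · rw [h, H500.Rl.cub_actG h2 m hκ]
  · rw [h, h]
    have h3 := H500.Rl.cub_actG h2 m hκ (Alb.one _ _ (up K c) (upG K g'))
    rw [h1, H64.cub_one_eq, H64.cub_one_eq] at h3
    refine H64.herm_act h2 σ hm (r := nrd κ) ?_ ?_ x y
    · rw [hκσ, H64.star_mul_qt]
    · rw [hκ]
      have e0 : (upG K g 0 * upG K g 1 * upG K g 2 : K) ≠ 0 :=
        mul_ne_zero (mul_ne_zero (Units.ne_zero _) (Units.ne_zero _)) (Units.ne_zero _)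
      have e1 : (upG K g' 0 * upG K g' 1 * upG K g' 2 : K) ≠ 0 :=
        mul_ne_zero (mul_ne_zero (Units.ne_zero _) (Units.ne_zero _)) (Units.ne_zero _)
      field_simp at h3
      exact h3.symm
  · rw [h, h, H64.amap_act h2, hu, hκσ]
  · rw [h]
    exact h1

theorem reach_coord [NeZero (2 : K)] {ψ : AlbL K a' b' c' ≃ₗ[K] AlbL K a b c}
    (h : Reach σ g g' ψ) : IsCoord σ g g' ψ := by
  induction h with
  | refl => exact IsCoord.refl
  | @trip a' b' c' g' Ψ h a₂ b₂ c₂ i j l ht Ψ₂ h₂ ih =>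
    have e : Ψ₂ = (tripA K ht).trans Ψ := by
      apply LinearEquiv.ext
      intro x
      rw [h₂, LinearEquiv.trans_apply, tripA_apply]
    rw [e]
    exact ih.trans (isCoord_tripA σ ht)
  | @act a' b' c' g' Ψ h g₂ m κ hm hmσ hκσ hκ Ψ₂ h₂ ih =>
    have e : Ψ₂ = (Ψ₂.trans Ψ.symm).trans Ψ := by
      apply LinearEquiv.ext
      intro x
      rw [LinearEquiv.trans_apply, LinearEquiv.trans_apply, LinearEquiv.apply_symm_apply]
    have h3 : IsCoord σ g' g₂ (Ψ₂.trans Ψ.symm) := by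
      apply isCoord_actG two_ne_zero hm hmσ hκσ hκ
      intro x
      rw [LinearEquiv.trans_apply, h₂, LinearEquiv.symm_apply_apply]
    rw [e]
    exact ih.trans h3

theorem reach_div [NeZero (2 : k)] {ψ : AlbL K a' b' c' ≃ₗ[K] AlbL K a b c}
    (h : Reach σ g g' ψ) (hdiv : Division a b c) : Division a' b' c' := by
  induction h with
  | refl => exact hdiv
  | trip h ht Ψ₂ h₂ ih => exact (aniso_of_trip ih ht).2.2.2
  | act h m κ hm hmσ hκσ hκ Ψ₂ h₂ ih => exact ih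

theorem nrd_nn {w : k →+* ℝ} (ha : w a < 0) (hb : w b < 0) (x : Qt a b) : 0 ≤ w (nrd x) := by
  simp only [nrd, map_add, map_sub, map_mul, map_pow]
  have h1 : 0 ≤ w x.re ^ 2 := sq_nonneg _
  have h2 := mul_nonneg (neg_nonneg.2 ha.le) (sq_nonneg (w x.imI))
  have h3 := mul_nonneg (neg_nonneg.2 hb.le) (sq_nonneg (w x.imJ))
  have h4 := mul_nonneg (mul_nonneg_of_nonpos_of_nonpos ha.le hb.le) (sq_nonneg (w x.imK))
  linarith

theorem reach_pos [NeZero (2 : k)] (hfix : ∀ t : K, σ t = t → ∃ s : k, algebraMap k K s = t)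
    {ψ : AlbL K a' b' c' ≃ₗ[K] AlbL K a b c} (h : Reach σ g g' ψ) (w : k →+* ℝ)
    (hd : Dfn w a b c) (hg : ∀ i, 0 < w (g i)) (i : Fin 3) : 0 < w (g' i) := by
  induction h generalizing i with
  | refl => exact hg i
  | trip h ht Ψ₂ h₂ ih => exact ih i
  | @act a' b' c' g' Ψ h g₂ m κ hm hmσ hκσ hκ Ψ₂ h₂ ih =>
    have hd' := (Reach.dfn h w).2 hd
    have hq : ∀ j, ∃ q : Qt a' b', qup K q =
        (m : Matrix (Fin 3) (Fin 3) (Qt (up K a') (up K b'))) j i := by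
      intro j
      have hz := congrFun (congrFun hmσ j) i
      obtain ⟨r, hr⟩ := hfix _ (congrArg QuaternionAlgebra.re hz)
      obtain ⟨s, hs⟩ := hfix _ (congrArg QuaternionAlgebra.imI hz)
      obtain ⟨t, ht⟩ := hfix _ (congrArg QuaternionAlgebra.imJ hz)
      obtain ⟨u, hu⟩ := hfix _ (congrArg QuaternionAlgebra.imK hz)
      exact ⟨⟨r, s, t, u⟩, QuaternionAlgebra.ext hr hs ht hu⟩
    choose q hq using hq
    have h1 : (g₂ i : k) = ∑ j, (g' j : k) * nrd (q j) := by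
      apply (algebraMap k K).injective
      rw [isU_entry hm hmσ i, map_sum]
      refine Finset.sum_congr rfl fun j _ => ?_
      rw [map_mul, ← nrd_qup, hq]
    have h2 : 0 ≤ w (g₂ i) := by
      rw [h1, map_sum]
      apply Finset.sum_nonneg
      intro j _
      rw [map_mul]
      exact mul_nonneg (ih j).le (nrd_nn hd'.1 hd'.2.1 _)
    exact lt_of_le_of_ne h2 ((map_ne_zero w).2 (g₂ i).ne_zero).symm

/-- The subgroup contains the special unitary groups of degree three over the quaternion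
subalgebras which stay division algebras over `K`. -/
def HasB (σ : K ≃ₐ[k] K) {a b c : kˣ} (g : Fin 3 → kˣ)
    (N : Subgroup (AlbL K a b c ≃ₗ[K] AlbL K a b c)) : Prop :=
  ∀ (a' b' c' : kˣ) (g' : Fin 3 → kˣ) (ψ : AlbL K a' b' c' ≃ₗ[K] AlbL K a b c),
    IsCoord σ g g' ψ → Aniso (up K a') (up K b') →
    ∀ m : (Matrix (Fin 3) (Fin 3) (Qt (up K a') (up K b')))ˣ,
      IsU σ g' g' (m : Matrix (Fin 3) (Fin 3) (Qt (up K a') (up K b'))) →
      nu (m : Matrix (Fin 3) (Fin 3) (Qt (up K a') (up K b'))) = 1 →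
      ∀ φ : AlbL K a b c ≃ₗ[K] AlbL K a b c, (∀ x, φ (ψ x) = ψ (Alb.act m 1 x)) → φ ∈ N

end coord

variable {k K : Type} [Field k] [NumberField k] [Field K] [NumberField K] [Algebra k K]
  {σ : K ≃ₐ[k] K} {a b c : kˣ} {g : Fin 3 → kˣ}

/-- Tridiagonalisation, with a good quaternion subalgebra. -/
theorem lanczos_goodK (hdiv : Division a b c)
    (hanis : ∀ x : Alb a b c, Alb.tf (Alb.wt g x) x = 0 → x = 0) (r : Alb a b c) :
    ∃ (a' b' c' : kˣ) (g' : Fin 3 → kˣ) (ψ : AlbL K a' b' c' ≃ₗ[K] AlbL K a b c),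
      Reach σ g g' ψ ∧ Aniso (up K a') (up K b') ∧ ψ Alb.e1 = Alb.e1 ∧
      (r.x2 = 0 → r.x3 = 0 → ψ Alb.e2 = Alb.e2) ∧
      (∀ φ : k →+* ℝ, φ a' < 0 → φ b' < 0 → Dfn φ a' b' c') ∧
      ∃ R : Matrix (Fin 3) (Fin 3) k, R.transpose = R ∧ ψ (aup K (Alb.ofF R)) = aup K r := by
  obtain ⟨a', b', c', g', ψ, h1, h2, -, h4, R, h5, h6⟩ := lanczos (K := K) (σ := σ) hdiv hanis r
  obtain ⟨a₂, b₂, c₂, i, j, l, ht, hgood, hab⟩ := exists_goodK K (reach_div h1 hdiv)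
  refine ⟨a₂, b₂, c₂, g', (tripA K ht).trans ψ, ?_, hab, ?_, fun hx hy => ?_,
    hgood, R, h5, ?_⟩
  · exact h1.trip ht _ fun x => by rw [LinearEquiv.trans_apply, tripA_apply]
  · rw [LinearEquiv.trans_apply, tripA, mapE_e1, h2]
  · rw [LinearEquiv.trans_apply, tripA, mapE_e2, (h4 hx hy).1]
  · rw [LinearEquiv.trans_apply, tripA_aup, omapA_emb_ofF, h6]

omit [NumberField k] in
/-- Real unitary matrices. -/
theorem exists_nB {N : Subgroup (AlbL K a b c ≃ₗ[K] AlbL K a b c)} (hA : HasB σ g N)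
    {a' b' c' : kˣ} {g' : Fin 3 → kˣ} {ψ : AlbL K a' b' c' ≃ₗ[K] AlbL K a b c}
    [NeZero (2 : k)] (hc : IsCoord σ g g' ψ) (hab : Aniso (up K a') (up K b'))
    {m : (Matrix (Fin 3) (Fin 3) (Qt a' b'))ˣ}
    (hm : (m : Matrix (Fin 3) (Fin 3) (Qt a' b'))ᴴ * dg a' b' g' *
      (m : Matrix (Fin 3) (Fin 3) (Qt a' b')) = dg a' b' g') :
    ∃ n ∈ N, n (Alb.one _ _ _ (upG K g)) = Alb.one _ _ _ (upG K g) ∧
      ∀ x : Alb a' b' c', n (ψ (aup K x)) = ψ (aup K (Alb.act m 1 x)) := by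
  obtain ⟨n, hn⟩ : ∃ n : AlbL K a b c ≃ₗ[K] AlbL K a b c,
      ∀ x, n (ψ x) = ψ (Alb.act (upU K m) 1 x) := by
    refine ⟨(ψ.symm.trans (H64.actL two_ne_zero (upU K m) 1)).trans ψ, fun x => ?_⟩
    rw [LinearEquiv.trans_apply, LinearEquiv.trans_apply, LinearEquiv.symm_apply_apply]
    rfl
  refine ⟨n, hA a' b' c' g' ψ hc hab (upU K m) (isU_upU σ hm) (nu_upU hab c' hm) n hn, ?_,
    fun x => ?_⟩
  · have h1 : (upU K m : Matrix (Fin 3) (Fin 3) (Qt (up K a') (up K b')))ᴴ *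
        dg (up K a') (up K b') (upG K g') *
        (upU K m : Matrix (Fin 3) (Fin 3) (Qt (up K a') (up K b'))) =
          dg (up K a') (up K b') (upG K g') := by
      rw [upU_val, ← map_qup_conjTranspose, ← map_qup_dg, ← map_mul_qup, ← map_mul_qup, hm]
    rw [← hc.one, hn, H64.act_one (c := up K c') two_ne_zero h1]
  · rw [hn, act_upU]

variable (h2 : Module.finrank k K = 2) (hσ : σ ≠ 1) (hdiv : Division a b c)
  (hanis : ∀ x : AlbL K a b c, herm σ g x x = 0 → x = 0)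
  {N : Subgroup (AlbL K a b c ≃ₗ[K] AlbL K a b c)} (hA : HasB σ g N)

include h2 hσ hdiv hanis hA

/-- The base point. -/
theorem fix_oneB (hno : ∀ w : K →+* ℝ, ¬ Dfn (w.comp (algebraMap k K)) a b c)
    {φ : AlbL K a b c ≃ₗ[K] AlbL K a b c} (hφ : φ ∈ GE σ a b c g) :
    ∃ n ∈ N, n (Alb.one _ _ _ (upG K g)) = φ (Alb.one _ _ _ (upG K g)) := by
  obtain ⟨δ, hδ, hδ0⟩ := exists_delta_fo h2 hσ
  obtain ⟨z, r, hz, hr⟩ := Five.exists_real h2 hσ hδ hδ0 hφ
  obtain ⟨a', b', c', g', ψ, hψ, hab, -, -, hgood, R, hR, hRr⟩ :=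
    lanczos_goodK (K := K) (σ := σ) hdiv (anis_down_fo hanis) r
  have hcoord := reach_coord hψ
  have hanis' : ∀ x : AlbL K a' b' c', herm σ g' x x = 0 → x = 0 := H64.anis_coord hcoord hanis
  have hno' : ∀ w : K →+* ℝ, ¬ Dfn (w.comp (algebraMap k K)) a' b' c' := fun w hw =>
    hno w ((Reach.dfn hψ (w.comp (algebraMap k K))).1 hw)
  set x := ψ.symm (φ (Alb.one _ _ _ (upG K g))) with hx
  have hψx : ψ x = φ (Alb.one _ _ _ (upG K g)) := ψ.apply_symm_apply _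
  have hcay : IsCay δ z g' (Alb.ofF R) x :=
    IsCoord.isCay hcoord hRr (by rw [hψx]; exact hr)
  obtain ⟨μ, hμ, hcub⟩ := hcoord.cub
  have hnm : Alb.cub x = Alb.cub (Alb.one (up K a') (up K b') (up K c') (upG K g')) := by
    apply mul_left_cancel₀ hμ
    rw [← hcub, ← hcub, hψx, hφ.1, hcoord.one]
  obtain ⟨m, hm, hnu, hmx⟩ := Lit.exists_m h2 hσ hδ hδ0 hab hgood (fun w hw => (hno' w hw).elim)
    hanis' hz hR hcay hnm (fun w hw => (hno' w hw).elim)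
  obtain ⟨φ', -, hact⟩ := exists_actU (σ := σ) (c := c') (g := g') hab m hm hnu
  refine ⟨(ψ.symm.trans φ').trans ψ, hA a' b' c' g' ψ hcoord hab m hm hnu _ fun y => ?_, ?_⟩
  · rw [LinearEquiv.trans_apply, LinearEquiv.trans_apply, LinearEquiv.symm_apply_apply, hact]
  · rw [LinearEquiv.trans_apply, LinearEquiv.trans_apply, ← hcoord.one,
      LinearEquiv.symm_apply_apply, hact, hmx, hψx]
    rw [hcoord.one]

variable {τ : k →+* ℝ} (hτ : Dfn τ a b c) (hτg : ∀ i, 0 < τ (g i))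

include hτ hτg

/-- The first idempotent. -/
theorem fix_e1B {φ : AlbL K a b c ≃ₗ[K] AlbL K a b c} (hφ : φ ∈ GE σ a b c g)
    (h1 : φ (Alb.one _ _ _ (upG K g)) = Alb.one _ _ _ (upG K g)) :
    ∃ n ∈ N, n (Alb.one _ _ _ (upG K g)) = Alb.one _ _ _ (upG K g) ∧ n e1 = φ e1 := by
  obtain ⟨δ, hδ, hδ0⟩ := exists_delta8 h2 hσ
  have hinv := Five.invol h2 hδ hδ0
  have hfix := Five.exists_fix h2 hδ hδ0
  obtain ⟨r, hr⟩ := exists_aup σ hfix (x := φ e1) (by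
    rw [← ge_real hinv hφ h1, ← aup_e1, amap_aup])
  obtain ⟨a', b', c', g', ψ, hψ, hab, hψ1, -, hgood, R, hR, hψR⟩ :=
    lanczos_goodK (K := K) (σ := σ) hdiv (hanis_down hanis) r
  have hc := reach_coord hψ
  have hφ' := hc.symm.conj_mem hφ
  obtain ⟨m, hm, hmE, -⟩ := exists_mat h2 hσ hφ' (by
      rw [LinearEquiv.trans_apply, LinearEquiv.trans_apply, LinearEquiv.symm_symm, hc.one, h1,
        ← hc.one, LinearEquiv.symm_apply_apply]) τ ((Reach.dfn hψ τ).2 hτ)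
      (reach_pos hfix hψ τ hτ hτg) hgood 0 mat_e1 vec_e1 adj_e1 e1_ne
      (tG_e1 _) (fun w hw φk hφk t u h => Lit.sign_of_orbit w hw hφk h) hR (by
      rw [LinearEquiv.trans_apply, LinearEquiv.trans_apply, LinearEquiv.symm_symm, aup_e1, hψ1,
        ← hr, ← hψR, LinearEquiv.symm_apply_apply])
  obtain ⟨n, hn, hn1, hn2⟩ := exists_nB hA hc hab hm
  refine ⟨n, hn, hn1, ?_⟩
  have e := hn2 e1
  rwa [aup_e1, hψ1, hmE, hψR, hr] at e

/-- The second idempotent. -/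
theorem fix_e2B {φ : AlbL K a b c ≃ₗ[K] AlbL K a b c} (hφ : φ ∈ GE σ a b c g)
    (h1 : φ (Alb.one _ _ _ (upG K g)) = Alb.one _ _ _ (upG K g)) (he : φ e1 = e1) :
    ∃ n ∈ N, n (Alb.one _ _ _ (upG K g)) = Alb.one _ _ _ (upG K g) ∧ n e1 = e1 ∧
      n e2 = φ e2 := by
  obtain ⟨δ, hδ, hδ0⟩ := exists_delta8 h2 hσ
  have hinv := Five.invol h2 hδ hδ0
  have hfix := Five.exists_fix h2 hδ hδ0
  obtain ⟨r, hr⟩ := exists_aup σ hfix (x := φ e2) (by
    rw [← ge_real hinv hφ h1, ← aup_e2, amap_aup])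
  obtain ⟨hb1, hb2, hb3⟩ := block hinv hφ h1 he
  have hr2 : r.x2 = 0 := by
    apply oup_injective (K := K)
    rw [oup_zero, ← hb2, ← hr]
    rfl
  have hr3 : r.x3 = 0 := by
    apply oup_injective (K := K)
    rw [oup_zero, ← hb3, ← hr]
    rfl
  obtain ⟨a', b', c', g', ψ, hψ, hab, hψ1, hcl, hgood, R, hR, hψR⟩ :=
    lanczos_goodK (K := K) (σ := σ) hdiv (hanis_down hanis) r
  have hψ2 := hcl hr2 hr3
  have hc := reach_coord hψ
  have hφ' := hc.symm.conj_mem hφ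
  have h1' : ((ψ.symm.symm.trans φ).trans ψ.symm) (Alb.one _ _ _ (upG K g')) =
      Alb.one _ _ _ (upG K g') := by
    rw [LinearEquiv.trans_apply, LinearEquiv.trans_apply, LinearEquiv.symm_symm, hc.one, h1,
      ← hc.one, LinearEquiv.symm_apply_apply]
  have he' : ((ψ.symm.symm.trans φ).trans ψ.symm) e1 = e1 := by
    rw [LinearEquiv.trans_apply, LinearEquiv.trans_apply, LinearEquiv.symm_symm, hψ1, he]
    conv_lhs => rw [← hψ1]
    rw [LinearEquiv.symm_apply_apply]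
  have hER : ((ψ.symm.symm.trans φ).trans ψ.symm) (aup K e2) = aup K (ofF R) := by
    rw [LinearEquiv.trans_apply, LinearEquiv.trans_apply, LinearEquiv.symm_symm, aup_e2, hψ2,
      ← hr, ← hψR, LinearEquiv.symm_apply_apply]
  obtain ⟨m, hm, hmE, hm0⟩ := exists_mat h2 hσ hφ' h1' τ ((Reach.dfn hψ τ).2 hτ)
      (reach_pos hfix hψ τ hτ hτg) hgood 1 mat_e2 vec_e2 adj_e2 e2_ne
      (tG_e2 _) (fun w hw φk hφk t u h => sign_of_orbit2 w hw hφk h) hR hER
  have hR0 : R 0 0 = 0 := by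
    obtain ⟨hb1', -, -⟩ := block hinv hφ' h1' he'
    rw [← aup_e2, hER] at hb1'
    exact (map_eq_zero (algebraMap k K)).mp hb1'
  have hm1 : Alb.act m 1 (e1 : Alb a' b' c') = e1 := by
    rw [act_single m 1 mat_e1 vec_e1 (q := 1) (t := 1) nrd_one (w := fun i => if i = 0 then 1 else 0)
      (fun i => by
        rw [hm0 0 (by decide) hR0 i]
        by_cases hi : i = 0
        · subst hi
          simp
        · rw [if_neg hi, zero_smul, Matrix.one_apply_ne hi])]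
    ext1 <;> simp [ofF, e1]
  obtain ⟨n, hn, hn1, hn2⟩ := exists_nB hA hc hab hm
  refine ⟨n, hn, hn1, ?_, ?_⟩
  · have e := hn2 e1
    rwa [aup_e1, hψ1, hm1, aup_e1, hψ1] at e
  · have e := hn2 e2
    rwa [aup_e2, hψ2, hmE, hψR, hr] at e

omit hanis hA hτ hτg in
/-- The elements of the group that fix the base point and two diagonal idempotents. -/
theorem exists_relB {φ : AlbL K a b c ≃ₗ[K] AlbL K a b c} (hφ : φ ∈ GE σ a b c g)
    (h0 : φ (Alb.one _ _ _ (upG K g)) = Alb.one _ _ _ (upG K g))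
    (h1 : φ Alb.e1 = Alb.e1) (h2' : φ Alb.e2 = Alb.e2) :
    ∃ r : Rl.Rel a b c, φ = Rl.rlin K r := by
  obtain ⟨δ, hδ, hδ0⟩ := exists_delta_tw h2 hσ
  have hfix : ∀ t : K, σ t = t → ∃ s : k, algebraMap k K s = t := Five.exists_fix h2 hδ hδ0
  have hσ2 := sigma_sigma h2 hσ
  obtain ⟨f, hf⟩ := descend hfix (ge_real hσ2 hφ h0)
  have hc := cub_descend (K := K) hφ.1 hf
  have f1 : f e1 = e1 := by
    apply aup_injective (K := K)
    rw [hf, aup_e1, h1]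
  have f2 : f e2 = e2 := by
    apply aup_injective (K := K)
    rw [hf, aup_e2, h2']
  have f0 : f (one a b c g) = one a b c g := by
    apply aup_injective (K := K)
    rw [hf, one_aup, h0]
  have f3 : f e3 = e3 := by
    have e : (e3 : Alb a b c) =
        (g 2 : k) • (one a b c g - ((g 0 : k)⁻¹ • e1 + (g 1 : k)⁻¹ • e2)) := by
      apply Alb.ext <;> simp [e1, e2, e3]
    rw [e, map_smul, map_sub, map_add, map_smul, map_smul, f0, f1, f2]
  obtain ⟨r, hr⟩ := Rl.exists_rel hdiv hc f1 f2 f3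
  refine ⟨r, Rl.alb_unique' fun x => ?_⟩
  rw [← hf, hr, Rl.rlin_aup]

/-- A subgroup which contains the special unitary groups and the related triples is
everything. -/
theorem coreB (hno : ∀ w : K →+* ℝ, ¬ Dfn (w.comp (algebraMap k K)) a b c)
    (hNle : N ≤ GE σ a b c g) (hR : ∀ r : Rl.Rel a b c, Rl.rlin K r ∈ N)
    {φ : AlbL K a b c ≃ₗ[K] AlbL K a b c} (hφ : φ ∈ GE σ a b c g) : φ ∈ N := by
  have hinv : ∀ (n : AlbL K a b c ≃ₗ[K] AlbL K a b c) (x y : AlbL K a b c), n x = y →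
      n⁻¹ y = x := by
    intro n x y h
    rw [← h, ← LinearEquiv.mul_apply, inv_mul_cancel]
    rfl
  obtain ⟨n₀, hn₀, h0⟩ := fix_oneB h2 hσ hdiv hanis hA hno hφ
  have hφ0 : n₀⁻¹ * φ ∈ GE σ a b c g := mul_mem (inv_mem (hNle hn₀)) hφ
  have h1 : (n₀⁻¹ * φ) (Alb.one _ _ _ (upG K g)) = Alb.one _ _ _ (upG K g) := by
    rw [LinearEquiv.mul_apply]
    exact hinv _ _ _ h0
  obtain ⟨n, hn, hn1, hn2⟩ := fix_e1B h2 hσ hdiv hanis hA hτ hτg hφ0 h1
  have hφ1 : n⁻¹ * (n₀⁻¹ * φ) ∈ GE σ a b c g := mul_mem (inv_mem (hNle hn)) hφ0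
  have h3 : (n⁻¹ * (n₀⁻¹ * φ)) (Alb.one _ _ _ (upG K g)) = Alb.one _ _ _ (upG K g) := by
    rw [LinearEquiv.mul_apply, h1]
    exact hinv _ _ _ hn1
  have h4 : (n⁻¹ * (n₀⁻¹ * φ)) e1 = e1 := by
    rw [LinearEquiv.mul_apply]
    exact hinv _ _ _ hn2
  obtain ⟨n', hn', hn1', hn2', hn3'⟩ := fix_e2B h2 hσ hdiv hanis hA hτ hτg hφ1 h3 h4
  obtain ⟨r, hr⟩ := exists_relB h2 hσ hdiv (mul_mem (inv_mem (hNle hn')) hφ1)
    (by rw [LinearEquiv.mul_apply, h3]; exact hinv _ _ _ hn1')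
    (by rw [LinearEquiv.mul_apply, h4]; exact hinv _ _ _ hn2')
    (by rw [LinearEquiv.mul_apply]; exact hinv _ _ _ hn3')
  have h6 := mul_mem hn₀ (mul_mem hn (mul_mem hn' (hr ▸ hR r)))
  rwa [mul_inv_cancel_left, mul_inv_cancel_left, mul_inv_cancel_left] at h6

end Vale.Agent.P011N.X2
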