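import Vale.Agent.P011.E6.Pos3
import Vale.Agent.P011.E6.GoodQ
import Vale.Agent.P011.H321.SplitP

/-!
A quaternion subalgebra which splits at all real places where the octonion algebra does, and which
stays a division algebra over a given finite extension.
-/

open NumberField

namespace Vale.Agent.P011N.X2

open Vale.Agent.P011 Vale.Agent.P011.MPQ Vale.Agent.P011.D4
open Vale.Agent.P011.E6

section padic

variable {p : ℕ} [Fact p.Prime]

/-- The element is a unit which is not a square modulo `p`. -/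
def NonRes (α : ℚ_[p]) : Prop := ‖α‖ = 1 ∧ ∀ z : ℚ_[p], ‖z‖ ≤ 1 → ‖z ^ 2 - α‖ = 1

theorem exists_nonRes (hp : 2 < p) : ∃ n : ℤ, NonRes (n : ℚ_[p]) := by
  obtain ⟨x, hx⟩ := FiniteField.exists_nonsquare (F := ZMod p) (by
    rw [ZMod.ringChar_zmod_n]
    omega)
  obtain ⟨n, rfl⟩ := ZMod.intCast_surjective x
  have key : ∀ z : ℤ_[p], ‖z ^ 2 - (n : ℤ_[p])‖ = 1 := by
    intro z
    by_contra h
    have h1 : ‖z ^ 2 - (n : ℤ_[p])‖ < 1 := lt_of_le_of_ne (PadicInt.norm_le_one _) h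
    have h2 : z ^ 2 - (n : ℤ_[p]) ∈ RingHom.ker (PadicInt.toZMod (p := p)) := by
      rw [PadicInt.ker_toZMod, IsLocalRing.mem_maximalIdeal, PadicInt.mem_nonunits]
      exact h1
    rw [RingHom.mem_ker, map_sub, map_pow, map_intCast, sub_eq_zero] at h2
    exact hx ⟨PadicInt.toZMod z, by rw [← h2, sq]⟩
  refine ⟨n, ?_, fun z hz => ?_⟩
  · have h := key 0
    rw [zero_pow two_ne_zero, zero_sub, norm_neg] at h
    exact h
  · exact key ⟨z, hz⟩

theorem norm_eq_of_close {x y : ℚ_[p]} (h : ‖x - y‖ < ‖y‖) : ‖x‖ = ‖y‖ := by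
  have h1 : x = (x - y) + y := by ring
  rw [h1, Padic.add_eq_max_of_ne h.ne, max_eq_right h.le]

theorem NonRes.close {α β : ℚ_[p]} (h : NonRes α) (hβ : ‖β - α‖ < ‖α‖) : NonRes β := by
  refine ⟨(norm_eq_of_close hβ).trans h.1, fun z hz => ?_⟩
  rw [← h.2 z hz]
  apply norm_eq_of_close
  have e : z ^ 2 - β - (z ^ 2 - α) = -(β - α) := by ring
  rw [h.2 z hz, ← h.1, e, norm_neg]
  exact hβ

theorem NonRes.norm_form {α : ℚ_[p]} (h : NonRes α) (x y : ℚ_[p]) :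
    ‖x ^ 2 - α * y ^ 2‖ = max ‖x‖ ‖y‖ ^ 2 := by
  rcases le_or_gt ‖x‖ ‖y‖ with h1 | h1
  · rw [max_eq_right h1]
    by_cases hy : y = 0
    · subst hy
      have hx : x = 0 := norm_le_zero_iff.1 (by simpa using h1)
      subst hx
      simp
    · have h2 : x ^ 2 - α * y ^ 2 = y ^ 2 * ((x / y) ^ 2 - α) := by
        field_simp
      rw [h2, norm_mul, h.2 _ (by
        rw [norm_div]
        exact div_le_one_of_le₀ h1 (norm_nonneg _)), mul_one, norm_pow]
  · rw [max_eq_left h1.le, ← norm_pow]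
    apply norm_eq_of_close
    rw [sub_sub_cancel_left, norm_neg, norm_mul, h.1, one_mul, norm_pow, norm_pow]
    exact pow_lt_pow_left₀ h1 (norm_nonneg _) two_ne_zero

theorem sq_ne_p {r s : ℚ_[p]} (h : ‖r‖ ^ 2 = (p : ℝ)⁻¹ * ‖s‖ ^ 2) : r = 0 ∧ s = 0 := by
  have hp1 : (1 : ℝ) < p := by exact_mod_cast (Fact.out : p.Prime).one_lt
  have hp0 : (0 : ℝ) < p := by linarith
  by_cases hs : s = 0
  · subst hs
    simp only [norm_zero, ne_eq, OfNat.ofNat_ne_zero, not_false_eq_true, zero_pow, mul_zero,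
      pow_eq_zero_iff, norm_eq_zero] at h
    exact ⟨h, rfl⟩
  · exfalso
    have hr : r ≠ 0 := by
      rintro rfl
      have h1 : 0 < (p : ℝ)⁻¹ * ‖s‖ ^ 2 := mul_pos (inv_pos.2 hp0) (pow_pos (norm_pos_iff.2 hs) 2)
      rw [← h] at h1
      simp at h1
    rw [Padic.norm_eq_zpow_neg_valuation hr, Padic.norm_eq_zpow_neg_valuation hs, ← zpow_natCast,
      ← zpow_natCast, ← zpow_mul, ← zpow_mul, ← zpow_neg_one, ← zpow_add₀ hp0.ne'] at h
    have h1 := zpow_right_injective₀ hp0 hp1.ne' h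
    push_cast at h1
    omega

theorem max_norm (x y : ℚ_[p]) : ∃ w : ℚ_[p], max ‖x‖ ‖y‖ = ‖w‖ ∧ (w = 0 → x = 0 ∧ y = 0) := by
  rcases le_total ‖x‖ ‖y‖ with h | h
  · refine ⟨y, max_eq_right h, fun hy => ⟨?_, hy⟩⟩
    rw [hy, norm_zero] at h
    exact norm_le_zero_iff.1 h
  · refine ⟨x, max_eq_left h, fun hx => ⟨hx, ?_⟩⟩
    rw [hx, norm_zero] at h
    exact norm_le_zero_iff.1 h

/-- The local criterion for anisotropy. -/
theorem aniso_of_padic {K : Type} [Field K] (τ : K →+* ℚ_[p]) {a b : Kˣ} (ha : NonRes (τ a))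
    (hb : ‖τ b‖ = (p : ℝ)⁻¹) : Aniso a b := by
  intro x hx
  have h1 : τ x.re ^ 2 - τ a * τ x.imI ^ 2 = τ b * (τ x.imJ ^ 2 - τ a * τ x.imK ^ 2) := by
    have h2 := congrArg τ hx
    simp only [nrd, map_add, map_sub, map_mul, map_pow, map_zero] at h2
    linear_combination h2
  have h3 := congrArg norm h1
  rw [norm_mul, ha.norm_form, ha.norm_form, hb] at h3
  obtain ⟨r, hr, hr0⟩ := max_norm (τ x.re) (τ x.imI)
  obtain ⟨s, hs, hs0⟩ := max_norm (τ x.imJ) (τ x.imK)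
  rw [hr, hs] at h3
  obtain ⟨e1, e2⟩ := sq_ne_p h3
  ext
  · exact (map_eq_zero τ).1 (hr0 e1).1
  · exact (map_eq_zero τ).1 (hr0 e1).2
  · exact (map_eq_zero τ).1 (hs0 e2).1
  · exact (map_eq_zero τ).1 (hs0 e2).2

/-- Approximation at one `p`-adic place with prescribed signs. -/
theorem exists_sign_one {k : Type} [Field k] [NumberField k] (τ : k →+* ℚ_[p])
    (s : (k →+* ℝ) → Prop) :
    ∃ u : k, ‖τ u - 1‖ < 1 ∧ ∀ φ : k →+* ℝ, (s φ → φ u < 0) ∧ (¬ s φ → 0 < φ u) := by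
  classical
  obtain ⟨f, hf⟩ := real_approx (fun φ : k →+* ℝ => if s φ then (-2 : k) else 2) (fun _ => 1)
    (fun _ => one_pos)
  have hp1 : (1 : ℝ) < p := by exact_mod_cast (Fact.out : p.Prime).one_lt
  obtain ⟨n, hn⟩ := exists_pow_lt_of_lt_one (x := (‖τ f‖ + 1)⁻¹) (y := (p : ℝ)⁻¹)
    (inv_pos.2 (by positivity)) (inv_lt_one_of_one_lt₀ hp1)
  refine ⟨1 + (p : k) ^ n * f, ?_, fun φ => ?_⟩
  · rw [map_add, map_one, add_sub_cancel_left, map_mul, map_pow, map_natCast, norm_mul, norm_pow,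
      Padic.norm_p]
    have h0 : 0 < ‖τ f‖ + 1 := by positivity
    calc (p : ℝ)⁻¹ ^ n * ‖τ f‖ ≤ (‖τ f‖ + 1)⁻¹ * ‖τ f‖ :=
          mul_le_mul_of_nonneg_right hn.le (norm_nonneg _)
      _ < 1 := by
          rw [inv_mul_lt_iff₀ h0]
          linarith
  · have h1 : (1 : ℝ) ≤ (p : ℝ) ^ n := one_le_pow₀ hp1.le
    have h2 := abs_lt.1 (hf φ)
    rw [map_add, map_one, map_mul, map_pow, map_natCast]
    constructor
    · intro hs
      simp only [if_pos hs, map_neg, map_ofNat] at h2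
      nlinarith [h2.2]
    · intro hs
      simp only [if_neg hs, map_ofNat] at h2
      nlinarith [h2.1]

theorem exists_sign {k : Type} [Field k] [NumberField k] (τ : k →+* ℚ_[p]) {r : k} (hr : r ≠ 0)
    (s : (k →+* ℝ) → Prop) :
    ∃ x : kˣ, ‖τ x - τ r‖ < ‖τ r‖ ∧ ∀ φ : k →+* ℝ, (s φ → φ x < 0) ∧ (¬ s φ → 0 < φ x) := by
  obtain ⟨u, h1, h2⟩ := exists_sign_one τ fun φ => (s φ ↔ 0 < φ r)
  have hτ : 0 < ‖τ r‖ := norm_pos_iff.2 ((map_ne_zero τ).2 hr)
  have hu : u ≠ 0 := by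
    rintro rfl
    simp at h1
  refine ⟨Units.mk0 (u * r) (mul_ne_zero hu hr), ?_, fun φ => ?_⟩
  · rw [Units.val_mk0, map_mul, ← sub_one_mul, norm_mul]
    exact mul_lt_of_lt_one_left hτ h1
  · rw [Units.val_mk0, map_mul]
    rcases lt_or_gt_of_ne ((map_ne_zero φ).2 hr) with h | h
    · constructor
      · intro hs
        exact mul_neg_of_pos_of_neg ((h2 φ).2 fun h3 => absurd (h3.1 hs) (not_lt.2 h.le)) h
      · intro hs
        exact mul_pos_of_neg_of_neg ((h2 φ).1 ⟨fun h3 => absurd h3 hs,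
          fun h3 => absurd h3 (not_lt.2 h.le)⟩) h
    · constructor
      · intro hs
        exact mul_neg_of_neg_of_pos ((h2 φ).1 ⟨fun _ => h, fun _ => hs⟩) h
      · intro hs
        exact mul_pos ((h2 φ).2 fun h3 => hs (h3.2 h)) h

end padic

open Vale.Agent.P011.D4.Oct

section trip

variable {F : Type} [Field F] {a b c : Fˣ}

theorem pure_of {w : Oct a b c} (hw : dot w 1 = 0) : star w = -w := by
  apply star_neg_of_pure
  rw [bil_eq_dot, hw, mul_zero]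

/-- Two orthogonal pure elements belong to a basic triple. -/
theorem exists_trip2 (hdiv : Division a b c) {i j : Oct a b c} (hi : star i = -i) (hi0 : i ≠ 0)
    (hj : star j = -j) (hj0 : j ≠ 0) (hij : dot i j = 0) :
    ∃ (l : Oct a b c) (a' b' c' : Fˣ), Trip a' b' c' i j l := by
  obtain ⟨l, hl0, hl⟩ := exists_perp (![1, i, j, i * j, 0, 0, 0] : Fin 7 → Oct a b c)
  have hl1 : dot l 1 = 0 := hl 0
  have hl2 : dot l i = 0 := hl 1
  have hl3 : dot l j = 0 := hl 2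
  have hl4 : dot l (i * j) = 0 := hl 3
  exact ⟨l, exists_trip hdiv hi hi0 hj hj0 (pure_of hl1) hl0 hij
    (by rw [dot_comm, hl2]) (by rw [dot_comm, hl3]) (by rw [dot_comm, hl4])⟩

/-- A pure element belongs to a basic triple. -/
theorem exists_trip1 (hdiv : Division a b c) {i : Oct a b c} (hi : star i = -i) (hi0 : i ≠ 0) :
    ∃ (j l : Oct a b c) (a' b' c' : Fˣ), Trip a' b' c' i j l := by
  obtain ⟨j, hj0, hj⟩ := exists_perp (![1, i, 0, 0, 0, 0, 0] : Fin 7 → Oct a b c)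
  have hj1 : dot j 1 = 0 := hj 0
  have hj2 : dot j i = 0 := hj 1
  exact ⟨j, exists_trip2 hdiv hi hi0 (pure_of hj1) hj0 (by rw [dot_comm, hj2])⟩

theorem norm_snd (q : Qt a b) : Oct.norm (⟨0, q⟩ : Oct a b c) = -(c * nrd q) := by
  simp [Oct.norm, nrd]

end trip

/-- A basic triple whose quaternion algebra is good and stays a division algebra over `K`. -/
theorem exists_goodK {k : Type} (K : Type) [Field k] [NumberField k] [Field K] [NumberField K]
    [Algebra k K] {a b c : kˣ} (hdiv : Division a b c) :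
    ∃ (a' b' c' : kˣ) (i j l : Oct a b c), Trip a' b' c' i j l ∧
      (∀ φ : k →+* ℝ, φ a' < 0 → φ b' < 0 → Dfn φ a' b' c') ∧ Aniso (up K a') (up K b') := by
  obtain ⟨p, hp, h2, ⟨τ⟩⟩ := H321.exists_padic_embedding K 2
  obtain ⟨n, hn⟩ := exists_nonRes h2
  set τk : k →+* ℚ_[p] := τ.comp (algebraMap k K) with hτk
  have hn0 : (n : k) ≠ 0 := by
    intro h
    have h1 := congrArg τk h
    rw [map_intCast, map_zero] at h1
    have h3 := hn.1
    rw [h1, _root_.norm_zero] at h3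
    exact zero_ne_one h3
  have hp0 : (p : k) ≠ 0 := Nat.cast_ne_zero.2 hp.out.ne_zero
  obtain ⟨α, hα1, hα2⟩ := exists_sign τk hn0 fun φ => Dfn φ a b c
  obtain ⟨β, hβ1, hβ2⟩ := exists_sign τk hp0 fun _ => True
  rw [map_intCast] at hα1
  rw [map_natCast] at hβ1
  have hc : ∀ (φ : k →+* ℝ) (u : kˣ), φ u ≠ 0 := fun φ u => (map_ne_zero φ).2 u.ne_zero
  obtain ⟨q, hq⟩ := exists_nrd (a := a) (b := b) (α * c⁻¹) (by
    intro φ ha hb
    rw [Units.val_mul, map_mul, Units.val_inv_eq_inv_val, map_inv₀]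
    rcases lt_or_gt_of_ne (hc φ c) with h | h
    · exact mul_pos_of_neg_of_neg ((hα2 φ).1 ⟨ha, hb, h⟩) (inv_neg''.2 h)
    · exact mul_pos ((hα2 φ).2 fun h3 => absurd h3.2.2 (not_lt.2 h.le)) (inv_pos.2 h))
  have hni : Oct.norm (⟨0, q⟩ : Oct a b c) = -(α : k) := by
    rw [norm_snd, hq, Units.val_mul, Units.val_inv_eq_inv_val]
    have := c.ne_zero
    field_simp
  obtain ⟨j₁, l₁, a₁, b₁, c₁, ht₁⟩ := exists_trip1 hdiv (i := (⟨0, q⟩ : Oct a b c))
    (by apply ext8 <;> simp) (by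
      intro h
      rw [h, Oct.norm_zero] at hni
      exact α.ne_zero (neg_eq_zero.1 hni.symm))
  have ea : a₁ = α := Units.ext (neg_injective (ht₁.triple.norm_i.symm.trans hni))
  subst ea
  have hd : ∀ φ : k →+* ℝ, φ a₁ < 0 → Dfn φ a b c := fun φ h => by
    by_contra h3
    exact absurd ((hα2 φ).2 h3) (not_lt.2 h.le)
  have hdiv₁ : Division a₁ b₁ c₁ := (aniso_of_trip hdiv ht₁).2.2.2
  obtain ⟨q', hq'⟩ := exists_nrd (a := a₁) (b := b₁) (β * c₁⁻¹) (by
    intro φ ha _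
    rw [Units.val_mul, map_mul, Units.val_inv_eq_inv_val, map_inv₀]
    exact mul_pos_of_neg_of_neg ((hβ2 φ).1 trivial) (inv_neg''.2 ((hd φ ha).trip ht₁).2.2))
  have hnj : Oct.norm (⟨0, q'⟩ : Oct a₁ b₁ c₁) = -(β : k) := by
    rw [norm_snd, hq', Units.val_mul, Units.val_inv_eq_inv_val]
    have := c₁.ne_zero
    field_simp
  have hgi : Oct.norm (gi : Oct a₁ b₁ c₁) = -(a₁ : k) := trip_std.triple.norm_i
  obtain ⟨l₂, a₂, b₂, c₂, ht₂⟩ := exists_trip2 hdiv₁ (i := gi) (j := (⟨0, q'⟩ : Oct a₁ b₁ c₁))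
    trip_std.si (by
      intro h
      rw [h, Oct.norm_zero] at hgi
      exact a₁.ne_zero (neg_eq_zero.1 hgi.symm)) (by apply ext8 <;> simp) (by
      intro h
      rw [h, Oct.norm_zero] at hnj
      exact β.ne_zero (neg_eq_zero.1 hnj.symm)) (by simp [dot, gi])
  have ea : a₂ = a₁ := Units.ext (neg_injective (ht₂.triple.norm_i.symm.trans hgi))
  have eb : b₂ = β := Units.ext (neg_injective (ht₂.triple.norm_j.symm.trans hnj))
  subst ea eb
  obtain ⟨Φ, -, hΦ, -, -⟩ := exists_emb ht₁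
  have ht := trip_map ht₂ hΦ
  refine ⟨a₂, b₂, c₂, _, _, _, ht, fun φ h _ => (hd φ h).trip ht, ?_⟩
  refine aniso_of_padic τ (hn.close hα1) ?_
  have h3 := norm_eq_of_close hβ1
  rw [Padic.norm_p] at h3
  exact h3

end Vale.Agent.P011N.X2
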